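import Vale.Agent.P290Z.Odd.Spec
import Vale.Agent.P290Z.Deform

/-! P290Z, part II'': the steps CMP, MOVE, LIFT. -/

open Set Filter Metric
open scoped Topology Manifold ContDiff

namespace Vale.Agent.P290Z.Odd

open Vale.Agent.P290 Vale.Agent.P290.H805 Vale.Agent.P290.R2.H596 Dfm

theorem cmp : StCmp := by
  intro T E _ _ F s π r₀ hr₀ hπ hE
  obtain ⟨R, hR, M, hM, hRK, hloc⟩ := loc (vol := fun _ _ => 1) (closedBall_mem_nhds (0 : C2) hr₀)
    (hπ 0 (mem_closedBall_self hr₀.le)) (mul_ne_zero one_ne_zero hE)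
  refine ⟨min (R / 32) r₀, by positivity, min_le_right _ _, fun ε hε η hη => ?_⟩
  set η₀ := min (R / 64) (min (ε / 4) (η / 4)) with hη₀
  have h0 : 0 < η₀ := by positivity
  have a1 : η₀ ≤ R / 64 := min_le_left _ _
  have a2 : η₀ ≤ ε / 4 := (min_le_right _ _).trans (min_le_left _ _)
  have a3 : η₀ ≤ η / 4 := (min_le_right _ _).trans (min_le_right _ _)
  let φ : E → C2 := fun e => M ((F.triv (π 0) e).2 - (F.triv (π 0) (π 0)).2)
  have hφ : ∀ e e', φ e - φ e' = M ((F.triv (π 0) e).2 - (F.triv (π 0) e').2) :=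
    fun e e' => by simp only [φ, map_sub]; abel
  have hφ0 : φ (π 0) = 0 := by simp only [φ, sub_self, map_zero]
  have hφc : ContinuousAt φ (π 0) := M.continuous.continuousAt.comp
    ((continuousAt_snd.comp ((F.triv (π 0)).continuousAt (F.mem _))).sub continuousAt_const)
  have hsub : ball (0 : C2) R ⊆ closedBall 0 r₀ := ball_subset_closedBall.trans hRK
  refine ⟨Cl F (π 0) M (closedBall 0 R) π η₀, fun y => Cl_mem M isClosed_closedBall h0
    fun h => ⟨(hπ y (hRK h)).2.1, (hloc y h).1⟩,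
    {x | x ∈ (F.triv (π 0)).source ∧ ‖φ x‖ < η₀}, Eventually.and
      ((F.triv (π 0)).open_source.mem_nhds (F.mem _))
      (hφc.norm.eventually_lt_const (by simpa only [hφ0, norm_zero] using h0)), fun t p hp => ?_⟩
  have key : ∀ u : C2 → E, (∀ y ∈ closedBall (0 : C2) r₀, FH F t u y ∧
      (y, u y) ∈ Cl F (π 0) M (closedBall 0 R) π η₀) → ∀ y ∈ ball (0 : C2) R,
      F.p (u y) = t ∧ u y ∈ (F.triv (π 0)).source ∧ ‖φ (u y) - φ (π y)‖ < η₀ ∧
        DifferentiableAt ℂ (fun w => φ (u w)) y ∧ ‖φ (u y) - y‖ ≤ R / 32 := by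
    intro u hu y hy
    obtain ⟨b1, b2⟩ := hu y (hsub hy)
    obtain ⟨b3, b4⟩ := b2 (ball_subset_closedBall hy)
    have b5 : ‖φ (u y) - φ (π y)‖ < η₀ := by rw [hφ]; exact b4
    have b6 : ‖φ (π y) - y‖ ≤ R / 64 := by
      have := (hloc y (ball_subset_closedBall hy)).2
      rwa [add_zero] at this
    refine ⟨b1.1.self_of_nhds, b3, b5, M.differentiableAt.comp y ((b1.diff b3).sub_const _), ?_⟩
    have := norm_sub_le_norm_sub_add_norm_sub (φ (u y)) (φ (π y)) y
    linarith
  have hd : DifferentiableOn ℂ (fun y => φ (p y)) (ball 0 R) := fun y hy =>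
    (key p hp y hy).2.2.2.1.differentiableWithinAt
  have hb : ∀ y ∈ ball (0 : C2) R, ‖φ (p y) - y‖ ≤ R / 8 := fun y hy => by
    linarith [(key p hp y hy).2.2.2.2]
  have hs2 : ball (0 : C2) (R / 2) ⊆ ball 0 R := ball_subset_ball (by linarith)
  have heq : ∀ y ∈ ball (0 : C2) R, ∀ x, F.p x = t → x ∈ (F.triv (π 0)).source →
      φ (p y) = φ x → p y = x := fun y hy x h1 h2 h3 =>
    eq_of_snd ((key p hp y hy).1.trans h1.symm) (key p hp y hy).2.1 h2
      (sub_eq_zero.1 (hM (by rw [← hφ, map_zero, h3, sub_self])))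
  refine ⟨fun x hx hxt => ?_, fun p' hp' => ?_⟩
  · obtain ⟨y, e1, e2⟩ := onto hR hd hb (b := φ x) (by rw [sub_zero]; linarith [hx.2])
    refine ⟨y, ?_, heq y (hs2 e1) x hxt hx.1 e2⟩
    have e3 := expand hR hd hb e1 (mem_ball_self (half_pos hR))
    have e4 := (key p hp 0 (mem_ball_self hR)).2.2.1
    rw [hφ0, sub_zero] at e4
    have e5 := norm_sub_le (φ x) (φ (p 0))
    simp only [e2, sub_zero] at e3
    linarith [hx.2]
  · have h1 : ∀ y ∈ ball (0 : C2) (R / 16), ∃ y' ∈ ball (0 : C2) (R / 2), φ (p y') = φ (p' y) := by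
      intro y hy
      refine onto hR hd hb ?_
      have e1 := (key p' hp' y (ball_subset_ball (by linarith) hy)).2.2.2.2
      have e2 := norm_sub_le_norm_sub_add_norm_sub (φ (p' y)) y 0
      rw [mem_ball, dist_eq_norm] at hy
      linarith
    choose! h h2 h3 using h1
    refine ⟨fun y => h y - y, fun y hy => ?_⟩
    have hy1 : y ∈ ball (0 : C2) (R / 16) :=
      closedBall_subset_ball ((min_le_left _ _).trans_lt (by linarith)) hy
    have hy2 : y ∈ ball (0 : C2) (R / 2) := ball_subset_ball (by linarith) hy1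
    obtain ⟨b1, b2, b3, b4, -⟩ := key p' hp' y (hs2 hy2)
    refine ⟨(diff_of_comp hR hd hb (b := fun w => φ (p' w)) b4 ?_).sub differentiableAt_fun_id,
      ?_, ?_⟩
    · filter_upwards [isOpen_ball.mem_nhds hy1] with w hw using ⟨h2 w hw, h3 w hw⟩
    · have e1 := expand hR hd hb (h2 y hy1) hy2
      have e2 := norm_sub_le_norm_sub_add_norm_sub (φ (p' y)) (φ (π y)) (φ (p y))
      rw [norm_sub_rev (φ (π y))] at e2
      simp only [h3 y hy1] at e1
      linarith [(key p hp y (hs2 hy2)).2.2.1]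
    · rw [add_sub_cancel]
      exact (heq _ (hs2 (h2 y hy1)) _ b1 b2 (h3 y hy1)).symm

theorem move : StMove := by
  rintro T E _ _ F hp s x A hA ⟨g, R, hR, g0, hg, hb⟩
  have hxs : F.p x = s := by
    rw [← g0]; exact (hg 0 (by rw [norm_zero]; linarith)).1.1.self_of_nhds
  set Ψ : E × ℂ → T × C2 := fun q =>
    (F.p q.1, (F.triv x (g q.2)).2 + ((F.triv x q.1).2 - (F.triv x x).2)) with hΨ
  have hΨc : ∀ c : ℂ, ‖c‖ < R → ContinuousAt Ψ (x, c) := fun c hc => by
    refine ContinuousAt.prodMk (hp.comp continuous_fst).continuousAt ?_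
    refine ContinuousAt.add ?_ (ContinuousAt.sub ?_ continuousAt_const)
    · exact ContinuousAt.comp (g := fun c => (F.triv x (g c)).2) (f := Prod.snd) (x := (x, c))
        ((hg c hc).1.diff (hg c hc).2).continuousAt continuous_snd.continuousAt
    · exact ContinuousAt.comp (g := fun y => (F.triv x y).2) (f := Prod.fst) (x := (x, c))
        (continuous_snd.continuousAt.comp ((F.triv x).continuousAt (F.mem x)))
        continuous_fst.continuousAt
  have hΨx : ∀ c : ℂ, ‖c‖ < R → Ψ (x, c) = F.triv x (g c) := fun c hc => by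
    rw [F.mk_eq x (hg c hc).2, (hg c hc).1.1.self_of_nhds]
    simp [hΨ, hxs]
  have hΨt : ∀ c : ℂ, ‖c‖ < R → Ψ (x, c) ∈ (F.triv x).target := fun c hc => by
    rw [hΨx c hc]; exact (F.triv x).map_source (hg c hc).2
  have hlt : ∀ c ∈ closedBall (0 : ℂ) ((1 + R) / 2), ‖c‖ < R := fun c hc =>
    (mem_closedBall_zero_iff.1 hc).trans_lt (by linarith)
  have h2 : ∀ᶠ y in 𝓝 x, ∀ c ∈ closedBall (0 : ℂ) ((1 + R) / 2), Ψ (y, c) ∈ (F.triv x).target :=
    (isCompact_closedBall (0 : ℂ) _).eventually_forall_of_forall_eventually fun c hc =>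
      (hΨc c (hlt c hc)).eventually ((F.triv x).open_target.mem_nhds (hΨt c (hlt c hc)))
  have h3 : ∀ᶠ y in 𝓝 x, ∀ c ∈ sphere (0 : ℂ) 1, (F.triv x).symm (Ψ (y, c)) ∈ A := by
    refine (isCompact_sphere (0 : ℂ) 1).eventually_forall_of_forall_eventually fun c hc => ?_
    have hc1 : ‖c‖ = 1 := mem_sphere_zero_iff_norm.1 hc
    have hc2 : ‖c‖ < R := by rw [hc1]; exact hR
    have a1 : ContinuousAt (fun q => (F.triv x).symm (Ψ q)) (x, c) :=
      ContinuousAt.comp (g := (F.triv x).symm) (f := Ψ)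
        ((F.triv x).continuousAt_symm (hΨt c hc2)) (hΨc c hc2)
    refine a1.eventually (p := fun y => y ∈ A) ?_
    change A ∈ 𝓝 ((F.triv x).symm (Ψ (x, c)))
    rw [hΨx c hc2, (F.triv x).left_inv (hg c hc2).2]
    exact hA.mem_nhds (hb c hc1)
  filter_upwards [h2, h3, (F.triv x).open_source.mem_nhds (F.mem x)] with y a2 a3 a4
  refine ⟨fun c => (F.triv x).symm (Ψ (y, c)), (1 + R) / 2, by linarith, ?_, fun c hc => ?_,
    fun c hc => a3 c (mem_sphere_zero_iff_norm.2 hc)⟩
  · have b3 : Ψ (y, 0) = F.triv x y := by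
      rw [F.mk_eq x a4]
      simp [hΨ, g0]
    simp only [b3, (F.triv x).left_inv a4]
  · have hc' := mem_closedBall_zero_iff.2 hc.le
    refine ⟨FH.mk_symm (v := fun c : ℂ => (Ψ (y, c)).2) ?_ (a2 c hc'),
      (F.triv x).map_target (a2 c hc')⟩
    simp only [hΨ]
    exact ((hg c (hlt c hc')).1.diff (hg c (hlt c hc')).2).add_const _

theorem lift : StLift := by
  rintro T E T' E' _ _ _ _ _ F G vol vol' t s' k Y D a x A hx hA ⟨g, R, hR, g0, hg, hb⟩
  classical
  have hg' : ∀ c ∈ ball (0 : ℂ) R, FH F t g c ∧ g c ∈ (F.triv a).source := fun c hc =>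
    hg c (mem_ball_zero_iff.1 hc)
  have h0 : (0 : ℂ) ∈ ball (0 : ℂ) R := mem_ball_self (by linarith)
  have han : AnalyticOnNhd ℂ (fun c => (F.triv a (g c)).2) (ball 0 R) :=
    DifferentiableOn.analyticOnNhd
      (fun c hc => ((hg' c hc).1.diff (hg' c hc).2).differentiableWithinAt) isOpen_ball
  have hne : ∀ c₀ ∈ ball (0 : ℂ) R, ∀ᶠ c in 𝓝[≠] c₀, g c ∉ range D.fix := by
    intro c₀ hc₀
    have h1 : ∀ i, ∀ᶠ c in 𝓝[≠] c₀, D.fix i ≠ g c := by
      intro i
      by_contra h2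
      have h3 : ∃ᶠ c in 𝓝[≠] c₀, D.fix i = g c := by
        simpa only [Filter.not_eventually, ne_eq, not_not] using h2
      have h4 := han.eqOn_of_preconnected_of_frequently_eq
        (g := fun _ => (F.triv a (D.fix i)).2) analyticOnNhd_const
        (convex_ball _ _).isPreconnected hc₀ (h3.mono fun c hc => by rw [hc]) h0
      obtain ⟨c, h5, h6⟩ := (h3.and_eventually
        (mem_nhdsWithin_of_mem_nhds (isOpen_ball.mem_nhds hc₀))).exists
      refine hx ⟨i, (eq_of_snd (F := F) (x := a) ?_ ?_ ?_ ?_).trans g0⟩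
      · rw [D.fix_p i, (hg' 0 h0).1.1.self_of_nhds]
      · rw [h5]; exact (hg' c h6).2
      · exact (hg' 0 h0).2
      · exact h4.symm
    filter_upwards [eventually_all.2 h1] with c hc ⟨i, hi⟩ using hc i hi
  have h1 : ∀ c ∈ ball (0 : ℂ) R, ∃ y : E', FH G s' (Function.update (fun c => D.q (g c)) c y) c ∧
      (g c ∉ range D.fix → y = D.q (g c)) := by
    intro c hc
    by_cases h : g c ∈ range D.fix
    · obtain ⟨y, hy⟩ := D.lift g c
        (mem_of_superset (isOpen_ball.mem_nhds hc) fun w hw => (hg' w hw).1) h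
        ((hne c hc).mono fun w hw e => hw (e ▸ h))
      exact ⟨y, hy, fun h' => absurd h h'⟩
    · refine ⟨D.q (g c), ?_, fun _ => rfl⟩
      rw [Function.update_eq_self c fun c => D.q (g c)]
      have h2 := (D.hol (fun w : C2 => g w.1) (c, 0)
        (FH.comp (q := fun w : C2 => w.1) (w := (c, 0)) (hg' c hc).1 differentiableAt_fst) h).1
      exact FH.comp (u := fun w : C2 => D.q (g w.1)) (q := fun c : ℂ => ((c, 0) : C2)) h2
        (differentiableAt_fun_id.prodMk (differentiableAt_const _))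
  have : Nonempty E' := ⟨D.q x⟩
  choose! y hy1 hy2 using h1
  refine ⟨y, R, hR, by rw [hy2 0 h0 (by rw [g0]; exact hx), g0], fun c hc => ?_, fun c hc => ?_⟩
  · have hc' := mem_ball_zero_iff.2 hc
    refine (hy1 c hc').congr ?_
    filter_upwards [eventually_nhdsWithin_iff.1 (hne c hc'), isOpen_ball.mem_nhds hc']
      with w h2 h3
    by_cases h : w = c
    · rw [h, Function.update_self]
    · rw [Function.update_of_ne h, hy2 w h3 (h2 h)]
  · have hc' : c ∈ ball (0 : ℂ) R := mem_ball_zero_iff.2 (by rw [hc]; exact hR)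
    rw [hy2 c hc' (disjoint_left.1 hA (hb c hc))]
    exact ⟨g c, ⟨hb c hc, (hg' c hc').1.1.self_of_nhds⟩, rfl⟩

end Vale.Agent.P290Z.Odd
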