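import Vale.Agent.P290Z.Odd.Spec
import Vale.Agent.P290Z.Deform

/-! P290Z, part II'': approximately flat necks persist. -/

open Set Filter Metric
open scoped Topology

namespace Vale.Agent.P290Z.Odd

open Vale.Agent.P290 Vale.Agent.P290.H805 Vale.Agent.P290.R2.H596 Dfm

/-- maps which are close to `g` separate a compact set of pairs which `g` separates -/
theorem sep {E : Type} [TopologicalSpace E] [T2Space E] {g : C2 → E} {Z : Set (C2 × C2)}
    (hZ : IsCompact Z) (h : ∀ q ∈ Z, ContinuousAt g q.1 ∧ ContinuousAt g q.2 ∧ g q.1 ≠ g q.2) :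
    ∃ 𝒪 : Set (C2 × E), (∀ y, 𝒪 ∈ 𝓝 (y, g y)) ∧
      ∀ q ∈ Z, ∀ e, (q.1, e) ∈ 𝒪 → (q.2, e) ∉ 𝒪 := by
  have h1 : ∀ q ∈ Z, ∃ ε > (0 : ℝ), ∃ W W' : Set E, IsOpen W ∧ IsOpen W' ∧ Disjoint W W' ∧
      (∀ y ∈ closedBall q.1 ε, g y ∈ W) ∧ ∀ y ∈ closedBall q.2 ε, g y ∈ W' := fun q hq => by
    obtain ⟨W, W', a1, a2, a3, a4, a5⟩ := t2_separation (h q hq).2.2
    obtain ⟨ε, hε, b1⟩ := nhds_basis_closedBall.mem_iff.1 ((h q hq).1 (a1.mem_nhds a3))
    obtain ⟨ε', hε', b2⟩ := nhds_basis_closedBall.mem_iff.1 ((h q hq).2.1 (a2.mem_nhds a4))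
    exact ⟨min ε ε', lt_min hε hε', W, W', a1, a2, a5,
      fun y hy => b1 (closedBall_subset_closedBall (min_le_left _ _) hy),
      fun y hy => b2 (closedBall_subset_closedBall (min_le_right _ _) hy)⟩
  choose! ε hε W W' a1 a2 a3 a4 a5 using h1
  obtain ⟨a, ha, hcov⟩ := hZ.elim_nhds_subcover (fun q => closedBall q (ε q))
    fun q hq => closedBall_mem_nhds _ (hε q hq)
  refine ⟨{p | ∀ q ∈ a, (p.1 ∈ closedBall q.1 (ε q) → p.2 ∈ W q) ∧
    (p.1 ∈ closedBall q.2 (ε q) → p.2 ∈ W' q)}, fun y => ?_, fun q hq e h1 h2 => ?_⟩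
  · exact (eventually_all_finset a).2 fun q hq => (imp_mem isClosed_closedBall fun hy =>
      continuousAt_snd.eventually ((a1 q (ha q hq)).mem_nhds (a4 q (ha q hq) y hy))).and
      (imp_mem isClosed_closedBall fun hy =>
        continuousAt_snd.eventually ((a2 q (ha q hq)).mem_nhds (a5 q (ha q hq) y hy)))
  · obtain ⟨q', h3, h4⟩ := mem_iUnion₂.1 (hcov hq)
    rw [← closedBall_prod_same] at h4
    exact disjoint_left.1 (a3 q' (ha q' h3)) ((h1 q' h3).1 h4.1) ((h2 q' h3).2 h4.2)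

theorem defP : StDefP := by
  intro l C ρ hC hcell hρ
  classical
  obtain ⟨hc1, hc2⟩ := good_cell l
  obtain ⟨r₀, hr₀, hK₀⟩ := hc1.exists_cthickening_subset_open hC hcell
  set K := cthickening r₀ (Cell l)
  set D := cthickening (r₀ / 4 + r₀ / 2) (Cell l)
  set C₁ := thickening (r₀ / 2) (Cell l)
  have hCl : closure C₁ ⊆ cthickening (r₀ / 2) (Cell l) := closure_thickening_subset_cthickening _ _
  have hCD : closure C₁ ⊆ D := hCl.trans (cthickening_mono (by linarith) _)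
  have hDK : D ⊆ K := cthickening_mono (by linarith) _
  have hD : IsCompact D := hc1.cthickening
  have hD₁ : IsCompact (closure C₁) := hD.of_isClosed_subset isClosed_closure hCD
  have hKn : ∀ z ∈ D, K ∈ 𝓝 z := fun z hz => mem_of_superset (isOpen_thickening.mem_nhds
    (cthickening_subset_thickening' hr₀ (by linarith) _ hz)) (thickening_subset_cthickening _ _)
  have hCC : closure C₁ ⊆ C := (hCD.trans hDK).trans hK₀
  have hCK : C₁ ⊆ K := subset_closure.trans (hCD.trans hDK)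
  refine ⟨C₁, ρ / 2, isOpen_thickening, self_subset_thickening (half_pos hr₀) _, hCC, hD₁,
    half_pos hρ, fun δ₁ hδ₁ => ⟨min (δ₁ / 2) (min (r₀ / 4) (1 / 2)), by positivity, ?_⟩⟩
  intro T E _ _ _ F vol hvol s π Ei c hπ hF 𝒪 h𝒪
  have hδ1 := min_le_left (δ₁ / 2) (min (r₀ / 4) (1 / 2))
  obtain ⟨hδ2, hδ3⟩ := le_min_iff.1 (min_le_right (δ₁ / 2) (min (r₀ / 4) (1 / 2)))
  generalize min (δ₁ / 2) (min (r₀ / 4) (1 / 2)) = δ at hF hδ1 hδ2 hδ3
  choose! r hr M hM hrK hloc using fun (z : C2) (hz : z ∈ D) =>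
    loc (vol := vol) (hKn z hz) (hπ z (hK₀ (hDK hz))) fun e => by
      have := (hF.jhol z (hK₀ (hDK hz))).2
      simp only [e, mul_zero, zero_sub, norm_neg, norm_one] at this
      linarith
  obtain ⟨a, ha, hcov⟩ := hD.elim_nhds_subcover (fun z => ball z (r z / 32))
    fun z hz => ball_mem_nhds _ (by have := hr z hz; positivity)
  obtain ⟨lam, hlam, hleb⟩ := lebesgue_number_lemma_of_metric
    (c := fun z : a => ball z.1 (r z / 32)) hD (fun _ => isOpen_ball) fun y hy => by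
      obtain ⟨z, hz, h⟩ := mem_iUnion₂.1 (hcov hy)
      exact mem_iUnion.2 ⟨⟨z, hz⟩, h⟩
  obtain ⟨η, ⟨hη1, hη2⟩, hη⟩ : ∃ η : ℝ, ((∀ z ∈ a, η < r z / 64) ∧ η < δ₁ / 8) ∧ 0 < η :=
    (((((eventually_all_finset a).2 fun z hz => eventually_lt_nhds
      (by have := hr z (ha z hz); positivity)).and (eventually_lt_nhds (by positivity))).filter_mono
        (nhdsWithin_le_nhds (s := Ioi 0))).and self_mem_nhdsWithin).exists
  obtain ⟨𝒪₁, h𝒪₁, hjac⟩ := jac_close hvol hD hKn (fun y hy => hπ y (hK₀ hy))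
    (show 0 < δ₁ / 2 / (‖c‖ + 1) by positivity)
  obtain ⟨𝒪₂, h𝒪₂, hsep⟩ := sep (g := π) (Z := (closure C₁ ×ˢ closure C₁) ∩
    {q | ‖q.1 - q.2‖ ∈ Icc lam (ρ / 2)}) ((hD₁.prod hD₁).inter_right
      (isClosed_Icc.preimage (by fun_prop))) fun q hq => ⟨(hπ _ (hCC hq.1.1)).2.1,
        (hπ _ (hCC hq.1.2)).2.1, fun e => by
          have h1 := hq.2.1
          rw [hF.inj _ (hCC hq.1.1) _ (hCC hq.1.2) (by linarith [hq.2.2]) e, sub_self,
            norm_zero] at h1
          linarith⟩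
  let S : C2 → Fin 3 → Set C2 := fun z i => (closure C₁ ∩ (fun w => w - l i) ⁻¹' closure C₁) ∩
    (fun w => w - l i + Ei i (w - l i)) ⁻¹' closedBall z (r z)
  have hS : ∀ z i, IsClosed (S z i) := fun z i => ContinuousOn.preimage_isClosed_of_isClosed
    (fun w hw => ((continuousAt_id.sub continuousAt_const).add (ContinuousAt.comp
      (f := fun w => w - l i) (hF.hol i _ (hCC hw.2) (by
        rw [sub_add_cancel]; exact hCC hw.1)).1.continuousAt (by fun_prop))).continuousWithinAt)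
    (isClosed_closure.inter (isClosed_closure.preimage (by fun_prop))) isClosed_closedBall
  have hdef := deformation (F := F) (t₀ := s) (K := K) (u₀ := π) ⟨hc1.cthickening, hc2.cthickening _⟩
    (mem_of_superset (hC.mem_nhdsSet.2 hK₀) hπ)
    {q | (q.1 ∈ closure C₁ → q ∈ 𝒪) ∧ q ∈ 𝒪₁ ∧ q ∈ 𝒪₂ ∧ ∀ z ∈ a,
      q ∈ Cl F (π z) (M z) (closedBall z (r z)) π η ∧ ∀ i, q ∈ Cl F (π z) (M z) (S z i) π η}
    fun w hw => (imp_mem isClosed_closure fun h => h𝒪 w h).and (Eventually.and (h𝒪₁ w hw)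
      (Eventually.and (h𝒪₂ w) ((eventually_all_finset a).2 fun z hz => Eventually.and
        (Cl_mem _ isClosed_closedBall hη fun h => ⟨(hπ w (hK₀ hw)).2.1, (hloc z (ha z hz) w h).1⟩)
        (eventually_all.2 fun i => Cl_mem _ (hS z i) hη fun h => ⟨(hπ w (hK₀ hw)).2.1, by
          rw [← sub_add_cancel w (l i), hF.rel i _ (hCC h.1.2) (by
            rw [sub_add_cancel]; exact hCC h.1.1)]
          exact (hloc z (ha z hz) _ h.2).1⟩))))
  filter_upwards [hdef, hjac] with t ⟨u, hu, hO⟩ hj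
  have hu' : ∀ y ∈ K, FH F t u y := fun y hy => hu.self_of_nhdsSet y hy
  have hut : ∀ y ∈ K, F.p (u y) = t := fun y hy => (hu' y hy).1.self_of_nhds
  let φ : C2 → E → C2 := fun z e => M z ((F.triv (π z) e).2 - (F.triv (π z) (π z)).2) + z
  have hφ : ∀ z e e', φ z e - φ z e' = M z ((F.triv (π z) e).2 - (F.triv (π z) e').2) :=
    fun z e e' => by simp only [φ, map_sub]; abel
  have hBK : ∀ z ∈ a, ball z (r z) ⊆ K := fun z hz => ball_subset_closedBall.trans (hrK z (ha z hz))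
  have hC' : C₁ ⊆ C := subset_closure.trans hCC
  have h1 : ∀ z ∈ a, ∀ y ∈ ball z (r z), u y ∈ (F.triv (π z)).source ∧
      ‖φ z (u y) - φ z (π y)‖ < η := fun z hz y hy => by
    rw [hφ]; exact ((hO y (hBK z hz hy)).2.2.2 z hz).1 (ball_subset_closedBall hy)
  have h2 : ∀ z ∈ a, ∀ i, ∀ y ∈ C₁, y + l i ∈ C₁ → y + Ei i y ∈ ball z (r z) →
      u (y + l i) ∈ (F.triv (π z)).source ∧ ‖φ z (u (y + l i)) - φ z (π (y + Ei i y))‖ < η :=
    fun z hz i y hy hi he => by
      rw [hφ, ← hF.rel i y (hC' hy) (hC' hi)]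
      exact ((hO _ (hCK hi)).2.2.2 z hz).2 i ⟨⟨subset_closure hi, by
        simpa using subset_closure hy⟩, by simpa using ball_subset_closedBall he⟩
  have hφd : ∀ z {v : C2 → E} {y : C2}, FH F t v y → v y ∈ (F.triv (π z)).source →
      DifferentiableAt ℂ (fun w => φ z (v w)) y := fun z v y h h' =>
    ((M z).differentiableAt.comp y ((h.diff h').sub_const _)).add_const _
  have hd : ∀ z ∈ a, DifferentiableOn ℂ (fun y => φ z (u y)) (ball z (r z)) := fun z hz y hy =>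
    (hφd z (hu' y (hBK z hz hy)) (h1 z hz y hy).1).differentiableWithinAt
  have h3 : ∀ z ∈ a, ∀ y ∈ ball z (r z), ‖φ z (π y) - y‖ ≤ r z / 64 := fun z hz y hy =>
    (hloc z (ha z hz) y (ball_subset_closedBall hy)).2
  have hb : ∀ z ∈ a, ∀ y ∈ ball z (r z), ‖φ z (u y) - y‖ ≤ r z / 8 := fun z hz y hy => by
    have := norm_sub_le_norm_sub_add_norm_sub (φ z (u y)) (φ z (π y)) y
    linarith [(h1 z hz y hy).2, h3 z hz y hy, hη1 z hz, hr z (ha z hz)]
  have hs : ∀ z ∈ a, ∀ c : ℝ, 1 ≤ c → ball z (r z / c) ⊆ ball z (r z) := fun z hz c hc =>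
    ball_subset_ball (div_le_self (hr z (ha z hz)).le hc)
  have hs2 : ∀ z ∈ a, ball z (r z / 32) ⊆ ball z (r z / 2) := fun z hz =>
    ball_subset_ball (by linarith [hr z (ha z hz)])
  have hz : ∀ i, ∀ y ∈ C₁, y + l i ∈ C₁ → ∃ z ∈ a, y + Ei i y ∈ ball z (r z / 32) :=
    fun i y hy hi => by
      simpa only [mem_iUnion, exists_prop] using hcov (cthickening_cthickening_subset (by positivity)
        (by positivity) _ (mem_cthickening_of_dist_le (y + Ei i y) y _ _ (hCl (subset_closure hy))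
          (by rw [dist_self_add_left]; exact (hF.hol i y (hC' hy) (hC' hi)).2.trans hδ2)))
  have key : ∀ i, ∀ y ∈ C₁, y + l i ∈ C₁ → ∃ c : C2, ‖y + c - (y + Ei i y)‖ ≤ 4 * η ∧
      u (y + l i) = u (y + c) := by
    intro i y hy hi
    obtain ⟨z, hz, hyz⟩ := hz i y hy hi
    have hy1 := hs z hz 32 (by norm_num) hyz
    obtain ⟨e1, e2⟩ := h2 z hz i y hy hi hy1
    generalize y + Ei i y = w at *
    obtain ⟨y', e3, e4⟩ := onto (hr z (ha z hz)) (hd z hz) (hb z hz) (b := φ z (u (y + l i))) (by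
      have a1 := norm_sub_le_norm_sub_add_norm_sub (φ z (u (y + l i))) (φ z (π w)) z
      have a2 := norm_sub_le_norm_sub_add_norm_sub (φ z (π w)) w z
      rw [mem_ball, dist_eq_norm] at hyz
      linarith [h3 z hz w hy1, hη1 z hz, hr z (ha z hz)])
    have e5 := expand (hr z (ha z hz)) (hd z hz) (hb z hz) e3 (hs2 z hz hyz)
    have hy2 := hs z hz 2 (by norm_num) e3
    refine ⟨y' - y, ?_, ?_⟩ <;> rw [add_sub_cancel]
    · have a1 := norm_sub_le_norm_sub_add_norm_sub (φ z (u (y + l i))) (φ z (π w)) (φ z (u w))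
      rw [norm_sub_rev (φ z (π w))] at a1
      simp only [e4] at e5
      linarith [(h1 z hz w hy1).2]
    · refine eq_of_snd (by rw [hut _ (hCK hi), hut _ (hBK z hz hy2)]) e1 (h1 z hz y' hy2).1
        (sub_eq_zero.1 (hM z (ha z hz) ?_))
      rw [← hφ, map_zero, ← e4, sub_self]
  choose! E₁ hE1 hE2 using key
  have hev : ∀ i, ∀ y ∈ C₁, y + l i ∈ C₁ → ∀ᶠ w in 𝓝 y, w ∈ C₁ ∧ w + l i ∈ C₁ := fun i y hy hi =>
    Eventually.and (isOpen_thickening.mem_nhds hy)
      ((continuousAt_id.add continuousAt_const).eventually (isOpen_thickening.mem_nhds hi))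
  have hsh' : ∀ i y, DifferentiableAt ℂ (fun w : C2 => w + l i) y := fun i y =>
    differentiableAt_fun_id.add_const _
  have hdiff : ∀ i, ∀ y ∈ C₁, y + l i ∈ C₁ → DifferentiableAt ℂ (fun w => w + E₁ i w) y := by
    intro i y hy hi
    obtain ⟨z, hz, hyz⟩ := hz i y hy hi
    refine diff_of_comp (hr z (ha z hz)) (hd z hz) (hb z hz) (b := fun w => φ z (u (w + l i)))
      (hφd z (FH.comp (q := fun w => w + l i) (hu' _ (hCK hi)) (hsh' i y))
        (h2 z hz i y hy hi (hs z hz 32 (by norm_num) hyz)).1) ?_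
    filter_upwards [hev i y hy hi, (continuousAt_id.add
      (hF.hol i y (hC' hy) (hC' hi)).1.continuousAt).eventually (isOpen_ball.mem_nhds hyz)]
      with w hw hw'
    refine ⟨?_, by rw [hE2 i w hw.1 hw.2]⟩
    have a0 : ‖w + Ei i w - z‖ < r z / 32 := mem_ball_iff_norm.1 hw'
    have a1 := norm_sub_le_norm_sub_add_norm_sub (w + E₁ i w) (w + Ei i w) z
    rw [mem_ball_iff_norm]
    linarith [hE1 i w hw.1 hw.2, hη1 z hz, hr z (ha z hz)]
  refine ⟨u, E₁, fun y hy => ⟨hu' y (hCK hy), (hO y (hCK hy)).1 (subset_closure hy)⟩,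
    fun y hy y' hy' hyy e => ?_, fun i y hy hi => ⟨?_, ?_⟩, hE2,
    fun y hy => ⟨?_, ?_⟩, fun i y hy hi hi' => ?_⟩
  · rcases lt_or_ge ‖y - y'‖ lam with h | h
    · obtain ⟨z, hz⟩ := hleb y (hCD (subset_closure hy))
      have e1 := expand (hr z (ha z z.2)) (hd z z.2) (hb z z.2)
        (hs2 z z.2 (hz (mem_ball_self hlam))) (hs2 z z.2 (hz (mem_ball_iff_norm'.2 h)))
      simp only [e, sub_self, norm_zero, mul_zero] at e1
      exact sub_eq_zero.1 (norm_le_zero_iff.1 e1)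
    · exact absurd (e ▸ (hO y' (hCK hy')).2.2.1) (hsep (y, y')
        ⟨⟨subset_closure hy, subset_closure hy'⟩, h, hyy.le⟩ _ (hO y (hCK hy)).2.2.1)
  · simpa using (hdiff i y hy hi).sub differentiableAt_fun_id
  · have a1 := hE1 i y hy hi
    rw [add_sub_add_left_eq_sub] at a1
    linarith [norm_le_norm_add_norm_sub' (E₁ i y) (Ei i y), (hF.hol i y (hC' hy) (hC' hi)).2]
  · exact (R2.H236.jac_diff R2.H514.stJac hvol
      (mem_of_superset (hKn y (hCD (subset_closure hy))) hu')).const_mul _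
  · have e1 := (le_div_iff₀' (by positivity)).1
      (hj u hu' (fun y hy => (hO y hy).2.1) y (hCD (subset_closure hy))).le
    have e2 := norm_sub_le_norm_sub_add_norm_sub (c * jac F vol t u y) (c * jac F vol s π y) 1
    rw [← mul_sub, norm_mul] at e2
    nlinarith [(hF.jhol y (hC' hy)).2, norm_nonneg (jac F vol t u y - jac F vol s π y)]
  · have e1 := R2.H236.jac_comp F vol (φ := fun w => w + l i) (hu' _ (hCK hi)) (hsh' i y)
    have e2 := R2.H236.jac_comp F vol (φ := fun w => w + E₁ i w) (hu' _ (hCK hi')) (hdiff i y hy hi)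
    rw [fderiv_add_const, fderiv_fun_id, jac_congr vol t (u' := fun w => u (w + E₁ i w))
      ((hev i y hy hi).mono fun w hw => hE2 i w hw.1 hw.2), e2] at e1
    have e3 : (ContinuousLinearMap.id ℂ C2).det = 1 := LinearMap.det_id
    rw [e3, mul_one] at e1
    rw [← e1, mul_assoc]

end Vale.Agent.P290Z.Odd
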