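import Vale.Agent.P290Z.Odd.Spec
import Vale.Agent.P290Z.Two

/-! P290Z: discs in families, and discs with boundary outside a countable set. -/

open Set Filter Metric
open scoped Topology Manifold ContDiff

namespace Vale.Agent.P290Z.Odd

open Vale.Agent.P290 Vale.Agent.P290.H805 Vale.Agent.P290.R2.H596

namespace Dsc

variable {T E : Type} [TopologicalSpace T] [TopologicalSpace E] {G : Family T E}

theorem fh_of_md {V : Type} [NormedAddCommGroup V] [NormedSpace ℂ V] {t : T} {f : V → Fib G t}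
    {z : V} (h : MD f z) : FH G t (fun y => (f y).1) z := by
  rw [MD, mdifferentiableAt_iff] at h
  refine ⟨Eventually.of_forall fun y => (f y).2, continuous_val.continuousAt.comp h.1, ?_⟩
  have h2 := h.2
  simp only [mfld_simps, differentiableWithinAt_univ] at h2
  exact h2

/-- an etale spray along a disc -/
theorem spray (hS : StSpr) [T2Space E] (hp : IsProperMap G.p) {s : T} {g : ℂ → E}
    (hg : ∀ᶠ c in 𝓝ˢ (closedBall (0 : ℂ) 1), FH G s g c) :
    ∃ u : ℂ × C2 → E, (∀ᶠ z in 𝓝ˢ (closedBall (0 : ℂ) 1 ×ˢ {(0 : C2)}), FH G s u z) ∧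
      (∀ c ∈ closedBall (0 : ℂ) 1, u (c, 0) = g c) ∧
      (fderiv ℂ (fun w => (G.triv (g 0) (u (0, w))).2) 0).det ≠ 0 := by
  have h0 : (0 : ℂ) ∈ closedBall (0 : ℂ) 1 := mem_closedBall_self zero_le_one
  have := Tw.t2_fib G s
  have := compact_fib G hp s
  have : SecondCountableTopology (Fib G s) :=
    ChartedSpace.secondCountable_of_sigmaCompact C2 (Fib G s)
  let _ : MetricSpace (Fib G s) := TopologicalSpace.metrizableSpaceMetric (Fib G s)
  set x₀ : Fib G s := ⟨g 0, (hg.self_of_nhdsSet 0 h0).1.self_of_nhds⟩ with hx₀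
  obtain ⟨F, f1, f2, f3⟩ := hS ℂ (Fib G s) _ (good_closedBall 1) (Tw.lift x₀ g)
    (hg.mono fun c hc => Tw.md_lift x₀ hc)
  have e : ∀ c ∈ closedBall (0 : ℂ) 1, (F (c, 0)).1 = g c := fun c hc => by
    rw [f2.self_of_nhdsSet c hc, Tw.lift_eq _ (hg.self_of_nhdsSet c hc).1.self_of_nhds]
  refine ⟨fun z => (F z).1, f1.mono fun z hz => fh_of_md hz, e, ?_⟩
  rw [← e 0 h0]
  exact (f3 0 h0).2.2

/-- the centre of a spray whose boundary lies in the interior of `OmE` -/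
theorem nhds_of_spray (hD : StDisc) [T2Space E] (hp : IsProperMap G.p) {s : T} {x : E}
    {u₀ : ℂ × C2 → E} (hx : u₀ (0, 0) = x)
    (hu : ∀ᶠ z in 𝓝ˢ (closedBall (0 : ℂ) 1 ×ˢ {(0 : C2)}), FH G s u₀ z)
    (hd : (fderiv ℂ (fun w => (G.triv x (u₀ (0, w))).2) 0).det ≠ 0)
    (hb : ∀ c : ℂ, ‖c‖ = 1 → OmE G ∈ 𝓝 (u₀ (c, 0))) : OmE G ∈ 𝓝 x := by
  set χ := G.triv x with hχ
  set B := fderiv ℂ (fun w => (χ (u₀ (0, w))).2) 0 with hB
  obtain ⟨κ, hκ, hc⟩ := Tw.cover hd one_pos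
  have h0 : (0 : ℂ) ∈ closedBall (0 : ℂ) 1 := mem_closedBall_self zero_le_one
  have hu1 : ∀ c ∈ closedBall (0 : ℂ) 1, ∀ᶠ z in 𝓝 ((c, 0) : ℂ × C2), FH G s u₀ z := fun c hc =>
    eventually_nhdsSet_iff_forall.1 hu (c, 0) ⟨hc, rfl⟩
  have f0 : FH G s (fun w : C2 => u₀ (0, w)) 0 :=
    FH.comp (q := fun w : C2 => ((0, w) : ℂ × C2)) (hu1 0 h0).self_of_nhds (by fun_prop)
  have s0 : u₀ (0, 0) ∈ χ.source := by rw [hx]; exact G.mem x
  have hxs : G.p x = s := by rw [← hx]; exact f0.1.self_of_nhds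
  have h2 := (hasFDerivAt_iff_isLittleO_nhds_zero.1 (f0.diff s0).hasFDerivAt).def (half_pos hκ)
  have h3 : ∀ᶠ w in 𝓝 (0 : C2), ∀ c ∈ closedBall (0 : ℂ) 1,
      ∀ᶠ z in 𝓝 ((c, w) : ℂ × C2), FH G s u₀ z :=
    (isCompact_closedBall (0 : ℂ) 1).eventually_forall_of_forall_eventually fun c hc =>
      (continuous_swap.continuousAt (x := ((0 : C2), c))).eventually
        (eventually_eventually_nhds.2 (hu1 c hc))
  have h4 : ∀ᶠ w in 𝓝 (0 : C2), ∀ c ∈ sphere (0 : ℂ) 1, OmE G ∈ 𝓝 (u₀ (c, w)) :=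
    (isCompact_sphere (0 : ℂ) 1).eventually_forall_of_forall_eventually fun c hc =>
      (continuous_swap.continuousAt (x := ((0 : C2), c))).eventually
        ((hu1 c (sphere_subset_closedBall hc)).self_of_nhds.2.1.eventually
          (eventually_mem_nhds_iff.2 (hb c (mem_sphere_zero_iff_norm.1 hc))))
  obtain ⟨σ, σ0, hσ⟩ := nhds_basis_closedBall.mem_iff.1
    (h2.and (h3.and (h4.and (f0.eventually_source s0))))
  have hK : Good (closedBall (0 : ℂ) 1 ×ˢ closedBall (0 : C2) σ) :=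
    (good_closedBall 1).prod ⟨isCompact_closedBall _ _, convex_closedBall _ _⟩
  have h5 := deformation hK (F := G) (t₀ := s) (u₀ := u₀)
    (eventually_nhdsSet_iff_forall.2 fun z hz => (hσ hz.2).2.1 z.1 hz.1)
    {p | (‖p.1.1‖ = 1 → p.2 ∈ OmE G) ∧
      (p.1.1 = 0 → p.2 ∈ χ.source ∧ ‖(χ p.2).2 - (χ x).2 - B p.1.2‖ < κ * σ)}
    fun z hz => by
      obtain ⟨a1, -, a3, a4⟩ := hσ hz.2
      refine inter_mem ?_ ?_
      · by_cases h : ‖z.1‖ = 1
        · filter_upwards [(continuous_snd.continuousAt (x := (z, u₀ z))).eventually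
            (a3 z.1 (mem_sphere_zero_iff_norm.2 h))] with p b1 _ using b1
        · filter_upwards [((continuous_fst.comp continuous_fst).norm.continuousAt
            (x := (z, u₀ z))).eventually_ne h] with p b1 b2 using absurd b2 b1
      · by_cases h : z.1 = 0
        · have e : z = (0, z.2) := Prod.ext h rfl
          have a5 : u₀ z ∈ χ.source := by rw [e]; exact a4
          have a6 : ContinuousAt (fun p : (ℂ × C2) × E => ‖(χ p.2).2 - (χ x).2 - B p.1.2‖)
              (z, u₀ z) := by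
            refine ContinuousAt.norm (ContinuousAt.sub (ContinuousAt.sub ?_ continuousAt_const) ?_)
            · exact ContinuousAt.comp (g := fun y => (χ y).2) (f := Prod.snd) (x := (z, u₀ z))
                (continuous_snd.continuousAt.comp (χ.continuousAt a5)) continuous_snd.continuousAt
            · exact (B.continuous.comp (continuous_snd.comp continuous_fst)).continuousAt
          have a7 : ‖(χ (u₀ z)).2 - (χ x).2 - B z.2‖ < κ * σ := by
            rw [e]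
            simp only [zero_add, hx] at a1
            refine a1.trans_lt ?_
            have := mem_closedBall_zero_iff.1 hz.2
            nlinarith [mul_pos hκ σ0]
          filter_upwards [a6.eventually_lt_const a7, continuous_snd.continuousAt.eventually
            (χ.open_source.mem_nhds a5)] with p b1 b2 _ using ⟨b2, b1⟩
        · filter_upwards [((continuous_fst.comp continuous_fst).continuousAt
            (x := (z, u₀ z))).eventually_ne h] with p b1 b2 using absurd b2 b1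
  have h6 : Tendsto G.p (𝓝 x) (𝓝 s) := by
    have := hp.continuous.tendsto x
    rwa [hxs] at this
  have h7 : Tendsto (fun y => (χ y).2 - (χ x).2) (𝓝 x) (𝓝 0) := by
    have : ContinuousAt (fun y => (χ y).2 - (χ x).2) x :=
      (continuous_snd.continuousAt.comp (χ.continuousAt (G.mem _))).sub continuousAt_const
    simpa using this.tendsto
  filter_upwards [h6.eventually h5, h7.eventually (hc σ σ0), χ.open_source.mem_nhds (G.mem x)]
    with y ⟨u, p1, p2⟩ a1 a2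
  have p3 : ∀ q ∈ ball (0 : C2) σ, ∀ c ∈ closedBall (0 : ℂ) 1,
      ∀ᶠ z in 𝓝 ((c, q) : ℂ × C2), FH G (G.p y) u z := fun q hq c hc =>
    eventually_nhdsSet_iff_forall.1 p1 (c, q) ⟨hc, ball_subset_closedBall hq⟩
  have p4 : ∀ q ∈ ball (0 : C2) σ, FH G (G.p y) (fun w : C2 => u (0, w)) q := fun q hq =>
    FH.comp (q := fun w : C2 => ((0, w) : ℂ × C2)) (p3 q hq 0 h0).self_of_nhds (by fun_prop)
  have p5 := fun q (hq : q ∈ ball (0 : C2) σ) =>
    (p2 (0, q) ⟨h0, ball_subset_closedBall hq⟩).2 rfl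
  obtain ⟨q₀, b1, b2, -⟩ := a1 (fun q => (χ (u (0, q))).2 - (χ x).2)
    (fun q hq => (((p4 q hq).diff (p5 q hq).1).sub_const _).differentiableWithinAt)
    fun q hq => (p5 q hq).2.le
  have b3 := mem_ball_zero_iff.2 b1
  have b4 : u (0, q₀) = y :=
    Tw.eq_of_coord (p5 q₀ b3).1 a2 (p4 q₀ b3).1.self_of_nhds (sub_left_injective b2)
  have p6 : ∀ c ∈ closedBall (0 : ℂ) 1, ∀ᶠ c' in 𝓝 c, FH G (G.p y) (fun c => u (c, q₀)) c' :=
    fun c hc => by
      have b5 : ContinuousAt (fun c : ℂ => ((c, q₀) : ℂ × C2)) c := by fun_prop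
      filter_upwards [b5.eventually (p3 q₀ b3 c hc)] with c' b6
      exact FH.comp (q := fun c : ℂ => ((c, q₀) : ℂ × C2)) b6 (by fun_prop)
  have := Tw.t2_fib G (G.p y)
  have := compact_fib G hp (G.p y)
  have key := hD (Fib G (G.p y)) (Tw.lift ⟨y, rfl⟩ fun c => u (c, q₀))
    (eventually_nhdsSet_iff_forall.2 fun c hc => (p6 c hc).mono fun c' h => Tw.md_lift _ h)
    (fun c hc => by
      have b5 := mem_closedBall_zero_iff.2 hc.le
      rw [Tw.lift_eq _ (u := fun c => u (c, q₀)) (p6 c b5).self_of_nhds.1.self_of_nhds,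
        ← Tw.mem_OmE]
      exact (p2 (c, q₀) ⟨b5, ball_subset_closedBall b3⟩).1 hc) 0 (by simp)
  rw [Tw.lift_eq _ (u := fun c => u (c, q₀)) (p6 0 h0).self_of_nhds.1.self_of_nhds,
    ← Tw.mem_OmE, b4] at key
  exact key

/-- the image of the regular set is a neighbourhood of each of its points, inside the fibre -/
theorem open_img {vol : E → T × C2 → ℂ} {s : T} (D : TorusDom G vol s) {y : C2}
    (hy : (D.N : ℂ) • y ∉ AddSubgroup.closure (range D.l)) :
    ∀ᶠ x in 𝓝 (D.π y), G.p x = s →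
      ∃ y', (D.N : ℂ) • y' ∉ AddSubgroup.closure (range D.l) ∧ D.π y' = x := by
  have hcard : Fintype.card (Fin 4) = Module.finrank ℝ C2 := by
    simp [Module.finrank_prod]
  obtain ⟨b₀, hb₀⟩ : ∃ b : Module.Basis (Fin 4) ℝ C2, ⇑b = D.l :=
    ⟨_, coe_basisOfLinearIndependentOfCardEqFinrank D.indep hcard⟩
  have hcl : IsClosed (AddSubgroup.closure (range D.l) : Set C2) := hb₀ ▸ Slab.closed_lat b₀
  have hc : Continuous fun w : C2 => (D.N : ℂ) • w := by fun_prop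
  set χ := G.triv (D.π y) with hχ
  set p : C2 → C2 := fun w => (χ (D.π w)).2 with hp
  have f0 := D.hol y hy
  have n0 : ∀ᶠ w in 𝓝 y, (D.N : ℂ) • w ∉ AddSubgroup.closure (range D.l) ∧ D.π w ∈ χ.source :=
    (hc.continuousAt.eventually (hcl.isOpen_compl.mem_nhds hy)).and
      (f0.1.eventually_source (G.mem _))
  have hd : (fderiv ℂ p y).det ≠ 0 := right_ne_zero_of_mul (f0.2.trans_ne D.J₀_ne)
  have c0 : ContDiffAt ℂ (1 : ℕ) p y :=
    contDiffAt_of_eventually (n0.mono fun w hw => (D.hol w hw.1).1.diff hw.2) 1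
  have d0 : HasStrictFDerivAt p
      ((fderiv ℂ p y).toContinuousLinearEquivOfDetNeZero hd : C2 →L[ℂ] C2) y := by
    rw [ContinuousLinearMap.coe_toContinuousLinearEquivOfDetNeZero]
    exact c0.hasStrictFDerivAt (by simp)
  have h1 := image_mem_map (m := p) n0
  rw [d0.map_nhds_eq_of_equiv] at h1
  have h2 : ContinuousAt (fun x => (χ x).2) (D.π y) :=
    continuous_snd.continuousAt.comp (χ.continuousAt (G.mem _))
  filter_upwards [h2.eventually h1, χ.open_source.mem_nhds (G.mem _)] with x ⟨w, a1, a2⟩ a3 a4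
  exact ⟨w, a1.1, Tw.eq_of_coord a1.2 a3
    ((D.hol w a1.1).1.1.self_of_nhds.trans a4.symm) a2⟩

/-- a generic perturbation of a curve avoids a countable set along a circle -/
theorem dense_avoid {v : ℂ → C2} {r : ℝ} (hr : 0 < r)
    (hv : ∀ c ∈ sphere (0 : ℂ) r, ∀ᶠ c' in 𝓝 c, DifferentiableAt ℂ v c') {W : Set C2}
    (hW : W.Countable) : Dense {ε : C2 | ∀ c ∈ sphere (0 : ℂ) r, v c + c • ε ∉ W} := by
  have h0 : ∀ c ∈ sphere (0 : ℂ) r, c ≠ 0 := fun c hc => ne_of_mem_sphere hc hr.ne'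
  have h1 : dimH (⋃ w ∈ W, (fun c : ℂ => c⁻¹ • (w - v c)) '' sphere (0 : ℂ) r) <
      Module.finrank ℝ C2 := by
    rw [dimH_bUnion hW]
    refine lt_of_le_of_lt (iSup₂_le fun w _ => (dimH_image_le_of_locally_lipschitzOn
      fun c hc => ?_).trans (dimH_mono (subset_univ _))) ?_
    · have a1 : ContDiffAt ℂ 1 v c := by simpa using contDiffAt_of_eventually (hv c hc) 1
      obtain ⟨K, t, ht, a2⟩ := ContDiffAt.exists_lipschitzOnWith (𝕂 := ℂ)
        (f := fun c : ℂ => c⁻¹ • (w - v c))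
        ((contDiffAt_id.inv (h0 c hc)).smul (contDiffAt_const.sub a1))
      exact ⟨K, t, mem_nhdsWithin_of_mem_nhds ht, a2⟩
    · rw [Real.dimH_univ_eq_finrank]
      simp only [Module.finrank_prod, Complex.finrank_real_complex, Nat.cast_lt]
      norm_num
  refine Dense.mono (fun ε hε c hc hw => ?_) (dense_compl_of_dimH_lt_finrank h1)
  refine hε (mem_iUnion₂.2 ⟨_, hw, c, hc, ?_⟩)
  simp only [add_sub_cancel_left, inv_smul_smul₀ (h0 c hc)]

end Dsc

theorem discFam (hS : StSpr) (hD : StDisc) : StDiscFam := by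
  rintro T E _ _ _ G hp s x ⟨g, R, hR, g0, hg, hb⟩
  obtain ⟨u, u1, u2, u3⟩ := Dsc.spray hS hp (s := s) (g := g)
    (mem_of_superset (isOpen_ball.mem_nhdsSet.2 (closedBall_subset_ball hR))
      fun c hc => hg c (mem_ball_zero_iff.1 hc))
  rw [g0] at u3
  refine Dsc.nhds_of_spray hD hp ((u2 0 (mem_closedBall_self zero_le_one)).trans g0) u1 u3
    fun c hc => ?_
  rw [u2 c (mem_closedBall_zero_iff.2 hc.le)]
  exact hb c hc

theorem discs : StDiscs := by
  intro T E _ _ F vol s D B hB a ha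
  obtain ⟨g, g0, hg, hb⟩ := D.disc a ha
  set χ := F.triv a with hχ
  set v : ℂ → C2 := fun c => (χ (g c)).2 with hv
  set O : Set E := interior {x | F.p x = s →
    ∃ y', (D.N : ℂ) • y' ∉ AddSubgroup.closure (range D.l) ∧ D.π y' = x} with hO
  have h1 : ∀ᶠ r : ℝ in 𝓝 1, ∀ c ∈ sphere (0 : ℂ) 1, g ((r : ℂ) * c) ∈ O := by
    refine (isCompact_sphere (0 : ℂ) 1).eventually_forall_of_forall_eventually fun c hc => ?_
    have hc1 : ‖c‖ = 1 := mem_sphere_zero_iff_norm.1 hc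
    have a1 : ContinuousAt (fun q : ℝ × ℂ => g ((q.1 : ℂ) * q.2)) (1, c) :=
      ContinuousAt.comp (g := g) (f := fun q : ℝ × ℂ => (q.1 : ℂ) * q.2)
        (by simpa using (hg c hc1.le).1.2.1) (by fun_prop)
    refine a1.eventually (isOpen_interior.mem_nhds ?_)
    obtain ⟨y, hy, e⟩ := hb c hc1
    have a2 := Dsc.open_img D hy
    rw [← e] at a2
    simpa using mem_interior_iff_mem_nhds.2 a2
  obtain ⟨r, hr, r0, r1⟩ : ∃ r : ℝ, (∀ c ∈ sphere (0 : ℂ) 1, g ((r : ℂ) * c) ∈ O) ∧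
      0 < r ∧ r < 1 :=
    ((h1.filter_mono nhdsWithin_le_nhds).and (Ioo_mem_nhdsLT (zero_lt_one' ℝ))).exists
  have hrc : ∀ c : ℂ, ‖(r : ℂ) * c‖ = r * ‖c‖ := fun c => by
    rw [norm_mul, Complex.norm_real, Real.norm_of_nonneg r0.le]
  have hvd : ∀ c : ℂ, ‖c‖ ≤ 1 → DifferentiableAt ℂ v c := fun c hc => (hg c hc).1.diff (hg c hc).2
  set Ψ : C2 × ℂ → T × C2 := fun q => (s, v q.2 + q.2 • q.1) with hΨ
  have hΨc : ∀ c : ℂ, ‖c‖ ≤ 1 → ContinuousAt Ψ (0, c) := fun c hc =>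
    continuousAt_const.prodMk (ContinuousAt.add
      (ContinuousAt.comp (g := v) (f := Prod.snd) (x := ((0 : C2), c)) (hvd c hc).continuousAt
        continuous_snd.continuousAt) (by fun_prop))
  have hΨx : ∀ c : ℂ, ‖c‖ ≤ 1 → Ψ (0, c) = χ (g c) := fun c hc => by
    rw [hχ, F.mk_eq a (hg c hc).2, (hg c hc).1.1.self_of_nhds]
    simp [hΨ, hv, hχ]
  have hΨt : ∀ c : ℂ, ‖c‖ ≤ 1 → Ψ (0, c) ∈ χ.target := fun c hc => by
    rw [hΨx c hc]; exact χ.map_source (hg c hc).2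
  have h2 : ∀ᶠ ε in 𝓝 (0 : C2), ∀ c ∈ closedBall (0 : ℂ) 1, Ψ (ε, c) ∈ χ.target :=
    (isCompact_closedBall (0 : ℂ) 1).eventually_forall_of_forall_eventually fun c hc =>
      (hΨc c (mem_closedBall_zero_iff.1 hc)).eventually
        (χ.open_target.mem_nhds (hΨt c (mem_closedBall_zero_iff.1 hc)))
  have h3 : ∀ᶠ ε in 𝓝 (0 : C2), ∀ c ∈ sphere (0 : ℂ) 1, χ.symm (Ψ (ε, (r : ℂ) * c)) ∈ O := by
    refine (isCompact_sphere (0 : ℂ) 1).eventually_forall_of_forall_eventually fun c hc => ?_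
    have hc2 : ‖(r : ℂ) * c‖ ≤ 1 := by
      rw [hrc, mem_sphere_zero_iff_norm.1 hc, mul_one]; exact r1.le
    have a0 : ContinuousAt (fun q : C2 × ℂ => Ψ (q.1, (r : ℂ) * q.2)) (0, c) :=
      ContinuousAt.comp (g := Ψ) (f := fun q : C2 × ℂ => (q.1, (r : ℂ) * q.2)) (hΨc _ hc2)
        (by fun_prop)
    have a1 : ContinuousAt (fun q : C2 × ℂ => χ.symm (Ψ (q.1, (r : ℂ) * q.2))) (0, c) :=
      ContinuousAt.comp (g := χ.symm) (f := fun q : C2 × ℂ => Ψ (q.1, (r : ℂ) * q.2))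
        (χ.continuousAt_symm (hΨt _ hc2)) a0
    refine a1.eventually (p := fun y => y ∈ O) (isOpen_interior.mem_nhds ?_)
    change χ.symm (Ψ (0, (r : ℂ) * c)) ∈ O
    rw [hΨx _ hc2, χ.left_inv (hg _ hc2).2]
    exact hr c hc
  have h4 := Dsc.dense_avoid (v := v) r0 (fun c hc => by
    filter_upwards [(continuous_norm.continuousAt (x := c)).eventually_lt_const
      ((mem_sphere_zero_iff_norm.1 hc).trans_lt r1)] with c' h using hvd c' h.le)
    (hB.image fun b => (χ (D.π b)).2)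
  obtain ⟨ε, e1, e2, e3⟩ := h4.inter_nhds_nonempty (h2.and h3)
  have h5 : ∀ c : ℂ, r * ‖c‖ ≤ 1 → FH F s (fun c : ℂ => χ.symm (Ψ (ε, (r : ℂ) * c))) c ∧
      Ψ (ε, (r : ℂ) * c) ∈ χ.target := fun c hc => by
    rw [← hrc] at hc
    have a1 := e2 _ (mem_closedBall_zero_iff.2 hc)
    refine ⟨FH.mk_symm (v := fun c : ℂ => v ((r : ℂ) * c) + ((r : ℂ) * c) • ε)
      (DifferentiableAt.add ?_ (by fun_prop)) a1, a1⟩
    exact DifferentiableAt.comp (g := v) (f := fun c : ℂ => (r : ℂ) * c) c (hvd _ hc)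
      (by fun_prop)
  refine ⟨fun c => χ.symm (Ψ (ε, (r : ℂ) * c)), r⁻¹, (one_lt_inv₀ r0).2 r1, ?_, fun c hc => ?_,
    fun c hc => ?_⟩
  · have a1 : Ψ (ε, (r : ℂ) * 0) = Ψ (0, 0) := by simp [hΨ]
    simp only [a1, hΨx 0 (by simp), g0]
    exact χ.left_inv (F.mem a)
  · have a1 := h5 c (by rw [← le_div_iff₀' r0, one_div]; exact hc.le)
    exact ⟨a1.1, χ.map_target a1.2⟩
  · have a1 := h5 c (by rw [hc, mul_one]; exact r1.le)
    obtain ⟨y, b1, b2⟩ := interior_subset (e3 c (mem_sphere_zero_iff_norm.2 hc))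
      a1.1.1.self_of_nhds
    refine ⟨y, ⟨fun hy => e1 ((r : ℂ) * c) ?_ ⟨y, hy, ?_⟩, b1⟩, b2⟩
    · rw [mem_sphere_zero_iff_norm, hrc, hc, mul_one]
    · change (χ (D.π y)).2 = _
      rw [b2, χ.right_inv a1.2]

end Vale.Agent.P290Z.Odd
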