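import Vale.Agent.P290Z.Odd.TubeQ
import Vale.Agent.P290Z.Base

/-! P290Z, part II'': the assembly. -/

open Set Filter Metric
open scoped Topology Manifold ContDiff

namespace Vale.Agent.P290Z.Odd

open Vale.Agent.P290 Vale.Agent.P290.H805 Vale.Agent.P290.R2.H596

section

variable {T E : Type} [TopologicalSpace T] [TopologicalSpace E] {F : Family T E}
  {vol : E → T × C2 → ℂ} {s : T}

theorem DiscIn.mono {x : E} {A A' : Set E} (h : DiscIn F s x A) (hA : A ⊆ A') : DiscIn F s x A' :=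
  let ⟨g, R, a, b, c, d⟩ := h
  ⟨g, R, a, b, c, fun z hz => hA (d z hz)⟩

theorem open_out (D : TorusDom F vol s) :
    IsOpen {y : C2 | (D.N : ℂ) • y ∉ AddSubgroup.closure (range D.l)} := by
  have hc : Fintype.card (Fin 4) = Module.finrank ℝ C2 := by
    simp [Module.finrank_prod, Complex.finrank_real_complex]
  have h1 := Slab.closed_lat (basisOfLinearIndependentOfCardEqFinrank D.indep hc)
  rw [coe_basisOfLinearIndependentOfCardEqFinrank] at h1
  exact h1.isOpen_compl.preimage (continuous_const_smul (D.N : ℂ))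

theorem countable_bad (D : TorusDom F vol s) {k : ℕ} (a : Fin k → E) :
    {y : C2 | (D.N : ℂ) • y ∈ AddSubgroup.closure (range D.l) ∨ D.π y ∈ range a}.Countable := by
  have h1 : {y : C2 | (D.N : ℂ) • y ∈ AddSubgroup.closure (range D.l)}.Countable := by
    refine (countable_range fun n : Fin 4 → ℤ => (D.N : ℂ)⁻¹ • ∑ i, n i • D.l i).mono fun y hy => ?_
    obtain ⟨n, hn⟩ := AddSubgroup.mem_closure_range_iff_of_fintype.1 hy
    exact ⟨n, by simp only [← hn, inv_smul_smul₀ (Nat.cast_ne_zero.2 D.N_pos.ne' : (D.N : ℂ) ≠ 0)]⟩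
  have h2 : ∀ x : E, {y : C2 | (D.N : ℂ) • y ∉ AddSubgroup.closure (range D.l) ∧
      D.π y = x}.Countable := fun x => by
    obtain ⟨t, -, a1, a2⟩ := TopologicalSpace.countable_cover_nhdsWithin (f := fun y : C2 => {y})
      (s := {y : C2 | (D.N : ℂ) • y ∉ AddSubgroup.closure (range D.l) ∧ D.π y = x})
      fun y hy => by
        have b0 := (D.hol y hy.1).1.1.self_of_nhds
        obtain ⟨φ, b1, b2⟩ := lh_lift ⟨_, b0⟩
          (((open_out D).eventually_mem hy.1).mono fun w hw => (D.hol w hw).1)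
          (right_ne_zero_of_mul (ne_of_eq_of_ne (D.hol y hy.1).2 D.J₀_ne)) y rfl
        filter_upwards [self_mem_nhdsWithin, nhdsWithin_le_nhds (φ.open_source.mem_nhds b1)]
          with w b3 b4
        refine φ.injOn b4 b1 ?_
        rw [← b2, Tw.lift_eq _ b0, Tw.lift_eq _ (D.hol w b3.1).1.1.self_of_nhds]
        exact Fib.ext (b3.2.trans hy.2.symm)
    exact a1.mono (by simpa using a2)
  refine (h1.union (countable_iUnion fun i => h2 (a i))).mono fun y hy => ?_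
  by_cases h : (D.N : ℂ) • y ∈ AddSubgroup.closure (range D.l)
  · exact Or.inl h
  · obtain ⟨i, hi⟩ := hy.resolve_left h
    exact Or.inr (mem_iUnion.2 ⟨i, h, hi.symm⟩)

theorem open_good [T2Space E] (D : TorusDom F vol s) {k : ℕ} (a : Fin k → E) :
    IsOpen {y : C2 | (D.N : ℂ) • y ∈ AddSubgroup.closure (range D.l) ∨ D.π y ∈ range a}ᶜ := by
  refine isOpen_iff_mem_nhds.2 fun y hy => ?_
  obtain ⟨h1, h2⟩ := not_or.1 hy
  filter_upwards [(open_out D).mem_nhds h1, (D.hol y h1).1.2.1.eventually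
    ((finite_range a).isClosed.isOpen_compl.mem_nhds h2)] with w a1 a2 using not_or.2 ⟨a1, a2⟩

end

theorem ii2 (hN : StNecks) (hW : StW) (hDs : StDiscs) (hM : StMove) (hL : StLift)
    (hDF : StDiscFam) : StII2 := by
  rintro T E T' X _ _ _ _ _ _ _ F G vol vol' hp hF hG hv hv' s s' k Y ⟨D₀⟩ hfr hcov
  suffices h : ∀ y ∈ Y, OmE G ∈ 𝓝 y by
    refine Tw.fibres_of_nhds hG fun x hx => ?_
    obtain ⟨t, x⟩ := x
    obtain rfl : t = s' := (hp _).symm.trans hx
    exact (hcov x).elim (h _) fun h1 => hDF _ _ G hG _ _ (h1.mono h)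
  intro y hy
  have hne : NeBot (comap (Subtype.val : {t // Nonempty (Cov F G vol vol' t s' k Y)} → T) (𝓝 s)) :=
    comap_neBot_iff_frequently.2 (by simpa using hfr)
  obtain ⟨𝒰, h𝒰⟩ := Ultrafilter.exists_le
    (comap (Subtype.val : {t // Nonempty (Cov F G vol vol' t s' k Y)} → T) (𝓝 s))
  replace h𝒰 := tendsto_iff_comap.2 h𝒰
  have lim : ∀ z : {t // Nonempty (Cov F G vol vol' t s' k Y)} → E, (∀ i, F.p (z i) = i.1) →
      ∃ a, F.p a = s ∧ Tendsto z (𝒰 : Filter _) (𝓝 a) := fun z hz =>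
    (isProperMap_iff_ultrafilter.1 hF).2 (𝒰 := 𝒰.map z)
      (h𝒰.congr (f₂ := fun i => F.p (z i)) fun i => (hz i).symm)
  choose a ha ha' using fun j => lim (fun i => i.2.some.fix j) fun i => i.2.some.fix_p j
  choose x hx1 hx2 hx3 using fun i : {t // Nonempty (Cov F G vol vol' t s' k Y)} =>
    i.2.some.surj y hy
  obtain ⟨b, hb, hb'⟩ := lim x hx1
  obtain ⟨B, hB, necks⟩ := hN D₀.l D₀.indep _ (countable_bad D₀ a)
  obtain ⟨g, R, hR, g0, g1, g2⟩ := hDs T E F vol s D₀ B hB b hb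
  have hK : IsCompact (g '' sphere 0 1) := (isCompact_sphere _ _).image_of_continuousOn fun c hc =>
    (g1 c (by rwa [mem_sphere_zero_iff_norm.1 hc])).1.2.1.continuousWithinAt
  have key := hK.mem_nhdsSet_prod_of_forall (l := 𝒰.toFilter)
    (s := {z | F.p z.1 = z.2.1 → z.1 ∉ range z.2.2.some.fix ∧ OmE G ∈ 𝓝 (z.2.2.some.q z.1)}) (by
      rintro _ ⟨c, hc, rfl⟩
      obtain ⟨y₀, ⟨a1, -⟩, a2⟩ := g2 c (mem_sphere_zero_iff_norm.1 hc)
      obtain ⟨l₁, l₂, b1, b2, b3, b4, b5, b6⟩ := necks y₀ a1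
      obtain ⟨B', c1, N, c2, c3⟩ := hW T E T' X F G vol vol' hp hG hv hv' s s' k Y a
        (fun w => D₀.π (y₀ + w)) l₁ l₂ _ D₀.J₀
        ((open_good D₀ a).preimage (continuous_const_add y₀)) b2 b3 D₀.J₀_ne
        (fun w hw => ⟨FH.comp (q := fun w => y₀ + w) (D₀.hol _ (not_or.1 hw).1).1 (by fun_prop), by
          rw [← (D₀.hol _ (not_or.1 hw).1).2, jac, jac,
            fderiv_comp_add_left (f := fun y' => (F.triv (D₀.π (y₀ + w)) (D₀.π y')).2)],
          (not_or.1 hw).2⟩)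
        (fun i w hw => by
          simp only [← add_assoc]
          exact ⟨Slab.per D₀ (b1 i).1 _ (not_or.1 hw).1, Slab.per D₀ (b1 i).2 _ (not_or.1 hw).1⟩)
        b4 b5 b6
      rw [add_zero, a2] at c1
      refine mem_of_superset (prod_mem_prod c1 ((h𝒰.eventually c3).and
        (eventually_all.2 fun j => (ha' j).eventually (c2 j)))) fun z hz => ?_
      exact hz.2.1 _ hz.2.2 _ hz.1)
  obtain ⟨A', a1, V, a2, a3⟩ := mem_prod_iff.1 key
  obtain ⟨A, a4, a5, a6⟩ := mem_nhdsSet_iff_exists.1 a1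
  obtain ⟨i, b1, b2⟩ := ((hb'.eventually (hM T E F hF.continuous s b A a4 ⟨g, R, hR, g0, g1,
    fun c hc => a5 (mem_image_of_mem _ (mem_sphere_zero_iff_norm.2 hc))⟩)).and a2).exists
  have b3 : ∀ z ∈ A, F.p z = i.1 → z ∉ range i.2.some.fix ∧ OmE G ∈ 𝓝 (i.2.some.q z) :=
    fun z hz => a3 (mk_mem_prod (a6 hz) b2)
  rw [hx1] at b1
  rw [← hx3 i]
  refine hDF _ _ G hG s' _ ((hL T E T' _ F G vol vol' _ s' k Y i.2.some b _ A (hx2 i)
    (Set.disjoint_left.2 fun z hz h => ?_) b1).mono ?_)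
  · obtain ⟨j, rfl⟩ := h
    exact (b3 _ hz (i.2.some.fix_p j)).1 (mem_range_self j)
  · rintro _ ⟨z, hz, rfl⟩
    exact (b3 z hz.1 hz.2).2

end Vale.Agent.P290Z.Odd
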