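import Vale.Agent.P290Z.Odd.Spec

/-! P290Z, part II'': two necks through all but countably many points -/

open Set Filter Metric
open scoped Topology

namespace Vale.Agent.P290Z.Odd

open Vale.Agent.P290 Vale.Agent.P290.H805 Vale.Agent.P290.R2.H596 Slab

namespace Nk

variable (b : Module.Basis (Fin 4) ℝ C2)

/-- the functional of the node `x` -/
noncomputable def ph (x : ℝ) : C2 →ₗ[ℝ] ℝ := ∑ i : Fin 4, x ^ (i : ℕ) • b.coord i

/-- a basis of its kernel -/
noncomputable def vv (x : ℝ) : Fin 3 → C2 := ![b 1 - x • b 0, b 2 - x • b 1, b 3 - x • b 2]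

theorem ph_vv (x : ℝ) (i : Fin 3) : ph b x (vv b x i) = 0 := by
  fin_cases i <;> simp [ph, vv, Fin.sum_univ_four] <;> ring

theorem vv_ind (x : ℝ) : LinearIndependent ℝ (vv b x) := by
  refine Fintype.linearIndependent_iff.2 fun g hg j => ?_
  have e1 := congrArg (fun w => b.repr w 1) hg
  have e2 := congrArg (fun w => b.repr w 2) hg
  have e3 := congrArg (fun w => b.repr w 3) hg
  simp [vv, Fin.sum_univ_three] at e1 e2 e3
  rw [e3, zero_mul, neg_zero, add_zero] at e2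
  rw [e2, zero_mul, neg_zero, add_zero] at e1
  fin_cases j
  exacts [e1, e2, e3]

theorem vv_mem (k : ℕ) (i : Fin 3) : vv b k i ∈ AddSubgroup.closure (range b) := by
  have h : ∀ i j, b i - (k : ℝ) • b j ∈ AddSubgroup.closure (range b) := fun i j =>
    sub_mem (AddSubgroup.subset_closure ⟨i, rfl⟩) (Nat.cast_smul_eq_nsmul ℝ k (b j) ▸
      nsmul_mem (AddSubgroup.subset_closure (mem_range_self j)) k)
  fin_cases i <;> exact h _ _

theorem vdm {x : Fin 4 → ℝ} (hx : Function.Injective x) {y : C2} (h : ∀ j, ph b (x j) y = 0) :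
    y = 0 := by
  have h1 := Matrix.eq_zero_of_forall_index_sum_pow_mul_eq_zero (v := fun i => b.repr y i) hx
    fun j => by simpa [ph, LinearMap.sum_apply] using h j
  exact b.repr.injective (by rw [map_zero]; exact Finsupp.ext (congrFun h1))

theorem countable {x : Fin 4 → ℝ} (hx : Function.Injective x) {S : Set C2} (hS : S.Countable) :
    {y | ∀ j, ph b (x j) y ∈ ph b (x j) '' S}.Countable :=
  (countable_pi fun j => hS.image (ph b (x j))).preimage_of_injOn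
    (f := fun y j => ph b (x j) y) fun y _ y' _ h => sub_eq_zero.1 (vdm b hx fun j => by
      rw [map_sub, sub_eq_zero]
      exact congrFun h j)

theorem neck (k : ℕ) {S : Set C2} {y₀ : C2} (h : ph b k y₀ ∉ ph b k '' S) : ∃ l : Fin 3 → C2,
    (∀ i, l i ∈ AddSubgroup.closure (range b)) ∧ (∀ y ∈ Cell l, y₀ + y ∉ S) ∧
      det2 (l 2) (UU l) ≠ 0 ∧ UU l = UU (vv b k) := by
  obtain ⟨l, e1, e2, e3⟩ := exists_rot (vv_ind b k)
  refine ⟨l, fun i => ?_, ?_, e2 ▸ e3, e2⟩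
  · obtain ⟨j, hj⟩ := e1 i
    exact hj ▸ vv_mem b k j
  · rintro _ ⟨t, -, rfl⟩ hy
    refine h ⟨_, hy, ?_⟩
    have e4 : ∀ i, ph b k (l i) = 0 := fun i => by
      obtain ⟨j, hj⟩ := e1 i
      rw [hj, ph_vv]
    rw [map_add, map_sum]
    simp [Complex.coe_smul, e4]

theorem three {x : Fin 3 → ℝ} (hx : Function.Injective x) (h0 : ∀ j, 0 ≤ x j) :
    ∃ j, det2 (UU (vv b (x 0))) (UU (vv b (x j))) ≠ 0 := by
  by_contra! h
  have h1 : ∀ (a : ℂ) j, ph b (x j) (a • UU (vv b (x 0))) = 0 := fun a j => by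
    obtain ⟨c, hc⟩ := line (UU_ne (vv_ind b (x j))) (h j)
    rw [hc, smul_smul]
    exact kill (ph_vv b _) _
  obtain ⟨a, ha, h2⟩ : ∃ a : ℂ, a ≠ 0 ∧ ph b (-1) (a • UU (vv b (x 0))) = 0 := by
    have := LinearMap.ker_ne_bot_of_finrank_lt (f := ph b (-1) ∘ₗ
      (LinearMap.toSpanSingleton ℂ C2 (UU (vv b (x 0)))).restrictScalars ℝ) (by simp)
    obtain ⟨a, h2, ha⟩ := (Submodule.ne_bot_iff _).1 this
    exact ⟨a, ha, h2⟩
  refine smul_ne_zero ha (UU_ne (vv_ind b (x 0))) (vdm b (x := Fin.cons (-1) x)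
    (Fin.cons_injective_iff.2 ⟨?_, hx⟩) (Fin.cases h2 (h1 a)))
  rintro ⟨j, hj⟩
  linarith [h0 j]

end Nk

open Nk in
theorem necks : StNecks := by
  classical
  intro l hl S hS
  have hcard : Fintype.card (Fin 4) = Module.finrank ℝ C2 := by
    simp [Module.finrank_prod]
  obtain ⟨b, rfl⟩ : ∃ b : Module.Basis (Fin 4) ℝ C2, ⇑b = l :=
    ⟨_, coe_basisOfLinearIndependentOfCardEqFinrank hl hcard⟩
  have hinj : ∀ {n : ℕ} (f : Fin n ↪o Fin 6), Function.Injective fun j => ((f j : ℕ) : ℝ) :=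
    fun f => Nat.cast_injective.comp (Fin.val_injective.comp f.injective)
  refine ⟨⋃ f : Fin 4 ↪o Fin 6, {y | ∀ j, ph b (f j : ℕ) y ∈ ph b (f j : ℕ) '' S},
    countable_iUnion fun f => countable b (hinj f) hS, fun y₀ hy => ?_⟩
  have h1 : ¬ 4 ≤ (Finset.univ.filter fun k : Fin 6 =>
      ph b (k : ℕ) y₀ ∈ ph b (k : ℕ) '' S).card := fun h =>
    hy (mem_iUnion.2 ⟨Finset.orderEmbOfCardLe _ h, fun j =>
      (Finset.mem_filter.1 (Finset.orderEmbOfCardLe_mem _ h j)).2⟩)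
  have h2 : 3 ≤ (Finset.univ.filter fun k : Fin 6 =>
      ¬ ph b (k : ℕ) y₀ ∈ ph b (k : ℕ) '' S).card := by
    have := Finset.card_filter_add_card_filter_not (s := Finset.univ)
      fun k : Fin 6 => ph b (k : ℕ) y₀ ∈ ph b (k : ℕ) '' S
    rw [Finset.card_univ, Fintype.card_fin] at this
    omega
  have h3 := fun j => neck b _ (Finset.mem_filter.1 (Finset.orderEmbOfCardLe_mem _ h2 j)).2
  obtain ⟨j, hj⟩ := three b (hinj (Finset.orderEmbOfCardLe _ h2)) fun _ => Nat.cast_nonneg _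
  obtain ⟨l₁, a1, a2, a3, a4⟩ := h3 0
  obtain ⟨l₂, c1, c2, c3, c4⟩ := h3 j
  exact ⟨l₁, l₂, fun i => ⟨a1 i, c1 i⟩, a2, c2, a3, c3, by rwa [a4, c4]⟩

end Vale.Agent.P290Z.Odd
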