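import Vale.Agent.P290Z.Slab

/-! P290Z, part II'': necks descend through a double cover. Definitions and the statements of the
steps. The paper proof is in `notes/P290_helper55.md`. -/

open Set Filter Metric
open scoped Topology Manifold ContDiff

namespace Vale.Agent.P290Z.Odd

open Vale.Agent.P290 Vale.Agent.P290.H805 Vale.Agent.P290.R2.H596

section defs

variable {T E T' E' : Type} [TopologicalSpace T] [TopologicalSpace E] [TopologicalSpace T']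
  [TopologicalSpace E']

/-- the determinant of the derivative of `g` at `y` does not vanish -/
def Et (G : Family T E) (g : C2 → E) (y : C2) : Prop :=
  (fderiv ℂ (fun w => (G.triv (g y) (g w)).2) y).det ≠ 0

/-- the fibres near `s` contain tubes which are `ε`-close to the flat tube `g (c e + w u)` -/
def TubeAt (G : Family T E) (s : T) (g : C2 → E) (e u : C2) (r ρ ε : ℝ) : Prop :=
  ∀ 𝒪 : Set (C2 × E), (∀ y ∈ closedBall (0 : C2) r, 𝒪 ∈ 𝓝 (y, g y)) →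
    ∀ᶠ t in 𝓝 s, ∃ (P : C2 → E) (ξ : C2 → C2), (∀ q : C2, ‖q.1‖ < ρ → FH G t P q) ∧
      ∀ q ∈ ball (0 : C2) ρ, DifferentiableAt ℂ ξ q ∧ ‖ξ q - (q.1 • e + q.2 • u)‖ ≤ ε ∧
        (‖ξ q‖ ≤ r → (ξ q, P q) ∈ 𝒪)

/-- a holomorphic disc in the fibre over `s` with centre `x` and boundary in `A` -/
def DiscIn (G : Family T E) (s : T) (x : E) (A : Set E) : Prop :=
  ∃ (g : ℂ → E) (R : ℝ), 1 < R ∧ g 0 = x ∧ (∀ c : ℂ, ‖c‖ < R → FH G s g c) ∧
    ∀ c : ℂ, ‖c‖ = 1 → g c ∈ A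

/-- the same inside the trivialisation at `a` -/
def DiscCh (G : Family T E) (s : T) (a x : E) (A : Set E) : Prop :=
  ∃ (g : ℂ → E) (R : ℝ), 1 < R ∧ g 0 = x ∧
    (∀ c : ℂ, ‖c‖ < R → FH G s g c ∧ g c ∈ (G.triv a).source) ∧ ∀ c : ℂ, ‖c‖ = 1 → g c ∈ A

/-- A map `q` from the fibre of `F` over `t`, outside `k` points, to the fibre of `G` over `s'`. It
multiplies the two-forms by a constant, its image contains `Y`, and curves through the `k` points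
have holomorphic images. -/
structure Cov (F : Family T E) (G : Family T' E') (vol : E → T × C2 → ℂ)
    (vol' : E' → T' × C2 → ℂ) (t : T) (s' : T') (k : ℕ) (Y : Set E') where
  fix : Fin k → E
  fix_p : ∀ i, F.p (fix i) = t
  q : E → E'
  c : ℂ
  c_ne : c ≠ 0
  hol : ∀ (g : C2 → E) (y : C2), FH F t g y → g y ∉ range fix →
    FH G s' (fun w => q (g w)) y ∧ jac G vol' s' (fun w => q (g w)) y = c * jac F vol t g y
  surj : ∀ y ∈ Y, ∃ x, F.p x = t ∧ x ∉ range fix ∧ q x = y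
  lift : ∀ (g : ℂ → E) (c₀ : ℂ), (∀ᶠ c in 𝓝 c₀, FH F t g c) → g c₀ ∈ range fix →
    (∀ᶠ c in 𝓝[≠] c₀, g c ≠ g c₀) →
    ∃ y : E', FH G s' (Function.update (fun c => q (g c)) c₀ y) c₀

end defs

/-- DEFP: approximately flat necks persist -/
def StDefP : Prop :=
  ∀ (l : Fin 3 → C2) (C : Set C2) (ρ : ℝ), IsOpen C → Cell l ⊆ C → 0 < ρ →
    ∃ (C₁ : Set C2) (ρ₁ : ℝ), IsOpen C₁ ∧ Cell l ⊆ C₁ ∧ closure C₁ ⊆ C ∧
      IsCompact (closure C₁) ∧ 0 < ρ₁ ∧ ∀ δ₁ > (0 : ℝ), ∃ δ > (0 : ℝ),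
      ∀ (T E : Type) [TopologicalSpace T] [TopologicalSpace E] [T2Space E] (G : Family T E)
        (vol : E → T × C2 → ℂ), RelForm G vol → ∀ (s : T) (g : C2 → E) (Ei : Fin 3 → C2 → C2)
        (c : ℂ), (∀ y ∈ C, FH G s g y) → Flat l C ρ δ g Ei (fun y => c * jac G vol s g y) →
        ∀ 𝒪 : Set (C2 × E), (∀ y ∈ closure C₁, 𝒪 ∈ 𝓝 (y, g y)) →
        ∀ᶠ t in 𝓝 s, ∃ (p : C2 → E) (E₁ : Fin 3 → C2 → C2),
          (∀ y ∈ C₁, FH G t p y ∧ (y, p y) ∈ 𝒪) ∧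
          Flat l C₁ ρ₁ δ₁ p E₁ (fun y => c * jac G vol t p y)

/-- TWOE: two transversal approximately flat tubes -/
def StTwoE : Prop :=
  ∀ e u e' u' : C2, det2 e u ≠ 0 → det2 e' u' ≠ 0 → det2 u u' ≠ 0 → ∀ r ρ : ℝ, 0 < r → 0 < ρ →
    ∃ ε > (0 : ℝ), ∃ η > (0 : ℝ),
    ∀ (T E : Type) [TopologicalSpace T] [TopologicalSpace E] [T2Space E] (G : Family T E),
      IsProperMap G.p → ∀ (s : T) (g : C2 → E),
      (∀ y ∈ closedBall (0 : C2) r, FH G s g y ∧ Et G g y) →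
      TubeAt G s g e u r ρ ε → TubeAt G s g e' u' r ρ ε →
      ∀ y : C2, ‖y‖ < η → OmE G ∈ 𝓝 (g y)

/-- CMP: comparison of two maps which are close to an etale map -/
def StCmp : Prop :=
  ∀ (T E : Type) [TopologicalSpace T] [TopologicalSpace E] (F : Family T E) (s : T) (π : C2 → E)
    (r₀ : ℝ), 0 < r₀ → (∀ y ∈ closedBall (0 : C2) r₀, FH F s π y) → Et F π 0 →
    ∃ r > (0 : ℝ), r ≤ r₀ ∧ ∀ ε > (0 : ℝ), ∀ η > (0 : ℝ), ∃ 𝒪 : Set (C2 × E),
      (∀ y : C2, 𝒪 ∈ 𝓝 (y, π y)) ∧ ∃ B ∈ 𝓝 (π 0), ∀ (t : T) (p : C2 → E),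
        (∀ y ∈ closedBall (0 : C2) r₀, FH F t p y ∧ (y, p y) ∈ 𝒪) →
        (∀ x ∈ B, F.p x = t → ∃ y : C2, ‖y‖ < η ∧ p y = x) ∧
        ∀ p' : C2 → E, (∀ y ∈ closedBall (0 : C2) r₀, FH F t p' y ∧ (y, p' y) ∈ 𝒪) →
          ∃ H : C2 → C2, ∀ y ∈ closedBall (0 : C2) r,
            DifferentiableAt ℂ H y ∧ ‖H y‖ ≤ ε ∧ p' y = p (y + H y)

/-- NECKS: two necks through all but countably many points -/
def StNecks : Prop :=
  ∀ (l : Fin 4 → C2), LinearIndependent ℝ l → ∀ S : Set C2, S.Countable →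
    ∃ B : Set C2, B.Countable ∧ ∀ y₀ ∉ B, ∃ l₁ l₂ : Fin 3 → C2,
      (∀ i, l₁ i ∈ AddSubgroup.closure (range l) ∧ l₂ i ∈ AddSubgroup.closure (range l)) ∧
      (∀ y ∈ Cell l₁, y₀ + y ∉ S) ∧ (∀ y ∈ Cell l₂, y₀ + y ∉ S) ∧
      det2 (l₁ 2) (Slab.UU l₁) ≠ 0 ∧ det2 (l₂ 2) (Slab.UU l₂) ≠ 0 ∧
      det2 (Slab.UU l₁) (Slab.UU l₂) ≠ 0

/-- DISCFAM: the disc property in families -/
def StDiscFam : Prop :=
  ∀ (T E : Type) [TopologicalSpace T] [TopologicalSpace E] [T2Space E] (G : Family T E),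
    IsProperMap G.p → ∀ (s : T) (x : E), DiscIn G s x {y | OmE G ∈ 𝓝 y} → OmE G ∈ 𝓝 x

/-- DISCS: discs with boundary in the image of the complement of a countable set -/
def StDiscs : Prop :=
  ∀ (T E : Type) [TopologicalSpace T] [TopologicalSpace E] (F : Family T E)
    (vol : E → T × C2 → ℂ) (s : T) (D : TorusDom F vol s) (B : Set C2), B.Countable →
    ∀ a : E, F.p a = s → DiscCh F s a a
      (D.π '' {y | y ∉ B ∧ (D.N : ℂ) • y ∉ AddSubgroup.closure (range D.l)})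

/-- MOVE: discs in a trivialisation can be moved -/
def StMove : Prop :=
  ∀ (T E : Type) [TopologicalSpace T] [TopologicalSpace E] (F : Family T E), Continuous F.p →
    ∀ (s : T) (a : E) (A : Set E), IsOpen A → DiscCh F s a a A →
    ∀ᶠ x in 𝓝 a, DiscCh F (F.p x) a x A

/-- LIFT: the image of a disc -/
def StLift : Prop :=
  ∀ (T E T' E' : Type) [TopologicalSpace T] [TopologicalSpace E] [T2Space E] [TopologicalSpace T']
    [TopologicalSpace E'] (F : Family T E) (G : Family T' E') (vol : E → T × C2 → ℂ)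
    (vol' : E' → T' × C2 → ℂ) (t : T) (s' : T') (k : ℕ) (Y : Set E')
    (D : Cov F G vol vol' t s' k Y) (a x : E) (A : Set E), x ∉ range D.fix →
    Disjoint A (range D.fix) → DiscCh F t a x A → DiscIn G s' (D.q x) (D.q '' (A ∩ F.p ⁻¹' {t}))

/-- TUBEQ: the tubes of the image of an approximately flat neck -/
def StTubeQ : Prop :=
  ∀ (l : Fin 3 → C2) (C : Set C2) (ρ₀ : ℝ), IsOpen C → Cell l ⊆ C → 0 < ρ₀ →
    det2 (l 2) (Slab.UU l) ≠ 0 → ∃ r > (0 : ℝ), ∃ ρ > (0 : ℝ), closedBall (0 : C2) r ⊆ C ∧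
    ∀ ε > (0 : ℝ), ∃ δ > (0 : ℝ),
    ∀ (T E T' X : Type) [TopologicalSpace T] [TopologicalSpace E] [T2Space E]
      [TopologicalSpace T'] [T2Space T'] [TopologicalSpace X] (F : Family T E)
      (G : Family T' (T' × X)) (vol : E → T × C2 → ℂ) (vol' : T' × X → T' × C2 → ℂ),
      (∀ a, G.p a = a.1) → RelForm F vol → RelForm G vol' →
      ∀ (t : T) (s' : T') (k : ℕ) (Y : Set (T' × X)) (D : Cov F G vol vol' t s' k Y)
        (p : C2 → E) (Ei : Fin 3 → C2 → C2) (c : ℂ),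
        (∀ y ∈ C, FH F t p y ∧ p y ∉ range D.fix) →
        Flat l C ρ₀ δ p Ei (fun y => c * jac F vol t p y) →
        TubeAt G s' (fun y => D.q (p y)) (l 2) (Slab.UU l) r ρ ε

/-- W: the neighbourhood of a point on two necks -/
def StW : Prop :=
  ∀ (T E T' X : Type) [TopologicalSpace T] [TopologicalSpace E] [T2Space E]
    [TopologicalSpace T'] [T2Space T'] [TopologicalSpace X] [T2Space X] (F : Family T E)
    (G : Family T' (T' × X)) (vol : E → T × C2 → ℂ) (vol' : T' × X → T' × C2 → ℂ),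
    (∀ a, G.p a = a.1) → IsProperMap G.p → RelForm F vol → RelForm G vol' →
    ∀ (s : T) (s' : T') (k : ℕ) (Y : Set (T' × X)) (a : Fin k → E) (π : C2 → E)
      (l₁ l₂ : Fin 3 → C2) (C₀ : Set C2) (J₀ : ℂ), IsOpen C₀ → Cell l₁ ⊆ C₀ → Cell l₂ ⊆ C₀ →
      J₀ ≠ 0 → (∀ y ∈ C₀, FH F s π y ∧ jac F vol s π y = J₀ ∧ π y ∉ range a) →
      (∀ i, ∀ y ∈ C₀, π (y + l₁ i) = π y ∧ π (y + l₂ i) = π y) →
      det2 (l₁ 2) (Slab.UU l₁) ≠ 0 → det2 (l₂ 2) (Slab.UU l₂) ≠ 0 →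
      det2 (Slab.UU l₁) (Slab.UU l₂) ≠ 0 →
      ∃ B ∈ 𝓝 (π 0), ∃ N : Fin k → Set E, (∀ i, N i ∈ 𝓝 (a i)) ∧
        ∀ᶠ t in 𝓝 s, ∀ D : Cov F G vol vol' t s' k Y, (∀ i, D.fix i ∈ N i) →
          ∀ x ∈ B, F.p x = t → x ∉ range D.fix ∧ OmE G ∈ 𝓝 (D.q x)

/-- **II''**: the fibres near a fibre which is covered by fibres arbitrarily near a fibre dominated
by a torus -/
def StII2 : Prop :=
  ∀ (T E T' X : Type) [TopologicalSpace T] [TopologicalSpace E] [T2Space E]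
    [TopologicalSpace T'] [T2Space T'] [TopologicalSpace X] [T2Space X] (F : Family T E)
    (G : Family T' (T' × X)) (vol : E → T × C2 → ℂ) (vol' : T' × X → T' × C2 → ℂ),
    (∀ a, G.p a = a.1) → IsProperMap F.p → IsProperMap G.p → RelForm F vol → RelForm G vol' →
    ∀ (s : T) (s' : T') (k : ℕ) (Y : Set (T' × X)), Nonempty (TorusDom F vol s) →
      (∃ᶠ t in 𝓝 s, Nonempty (Cov F G vol vol' t s' k Y)) →
      (∀ x : X, (s', x) ∈ Y ∨ DiscIn G s' (s', x) Y) →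
      ∀ᶠ t in 𝓝 s', Om (Fib G t) = univ

end Vale.Agent.P290Z.Odd
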