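import Vale.Agent.P290Z.Odd.Spec
import Vale.Agent.P290Z.Two

/-! P290Z, part II'': two transversal approximately flat tubes. -/

open Set Filter Metric
open scoped Topology Manifold ContDiff

namespace Vale.Agent.P290Z.Odd

open Vale.Agent.P290 Vale.Agent.P290.H805 Vale.Agent.P290.R2.H596

namespace TwE

/-- a small holomorphic map has a small Lipschitz constant on the half ball -/
theorem lip {h : C2 → C2} {ρ ε κ : ℝ} (hρ : 0 < ρ) (hd : DifferentiableOn ℂ h (ball 0 ρ))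
    (hb : ∀ x ∈ ball (0 : C2) ρ, ‖h x‖ ≤ ε) (hε : ε ≤ κ * (ρ / 2)) {x y : C2}
    (hx : x ∈ ball (0 : C2) (ρ / 2)) (hy : y ∈ ball (0 : C2) (ρ / 2)) :
    ‖h x - h y‖ ≤ κ * ‖x - y‖ := by
  refine Convex.norm_image_sub_le_of_norm_fderiv_le (𝕜 := ℂ) (s := ball (0 : C2) (ρ / 2)) ?_ ?_
    (convex_ball _ _) hy hx
  · intro z hz
    exact hd.differentiableAt (isOpen_ball.mem_nhds (ball_subset_ball (by linarith) hz))
  · intro z hz
    have hsub : ball z (ρ / 2) ⊆ ball (0 : C2) ρ := by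
      refine ball_subset_ball' ?_
      rw [mem_ball] at hz
      linarith
    refine (norm_fderiv_le_of_bound (by positivity) (hd.mono hsub) fun x hx => hb x (hsub hx)).trans
      ?_
    rwa [div_le_iff₀ (by positivity)]

variable {T E : Type} [TopologicalSpace T] [TopologicalSpace E] {G : Family T E}

/-- the neighbourhood of the graph of `g` given by the linear approximation at `y` -/
theorem approx {s : T} {g : C2 → E} {y : C2} (hg : FH G s g y) (Mi : C2 →L[ℂ] C2)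
    (hM : ∀ q, Mi (fderiv ℂ (fun w => (G.triv (g y) (g w)).2) y q) = q) {c : ℝ} (hc : 0 < c) :
    ∀ᶠ σ in 𝓝[>] (0 : ℝ), ∀ w : C2,
      {z : C2 × E | ‖z.1 - y‖ ≤ σ → z.2 ∈ (G.triv (g y)).source ∧
        ‖Mi ((G.triv (g y) z.2).2 - (G.triv (g y) (g y)).2) - (z.1 - y)‖ < c * σ} ∈
        𝓝 (w, g w) := by
  set χ := G.triv (g y) with hχ
  have h1 : HasFDerivAt (fun w => Mi (χ (g w)).2) (ContinuousLinearMap.id ℂ C2) y := by
    have := Mi.hasFDerivAt.comp y hg.2.2.hasFDerivAt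
    exact this.congr_fderiv (ContinuousLinearMap.ext hM)
  have h2 := h1.isLittleO.def (half_pos hc)
  obtain ⟨σ₀, s0, s1⟩ := nhds_basis_closedBall.mem_iff.1
    (h2.and (hg.eventually_source (G.mem (g y))))
  filter_upwards [Ioo_mem_nhdsGT s0] with σ hσ w
  by_cases hw : ‖w - y‖ ≤ σ
  · obtain ⟨a1, a3⟩ := @s1 w (by rw [mem_closedBall, dist_eq_norm]; exact hw.trans hσ.2.le)
    have a4 : ContinuousAt (fun z : C2 × E => ‖Mi ((χ z.2).2 - (χ (g y)).2) - (z.1 - y)‖)
        (w, g w) := by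
      refine ContinuousAt.norm (ContinuousAt.sub
        (Mi.continuous.continuousAt.comp (ContinuousAt.sub ?_ continuousAt_const)) (by fun_prop))
      exact ContinuousAt.comp (g := fun y => (χ y).2) (f := Prod.snd) (x := (w, g w))
        (continuous_snd.continuousAt.comp (χ.continuousAt a3)) continuous_snd.continuousAt
    have a5 : ‖Mi ((χ (g w)).2 - (χ (g y)).2) - (w - y)‖ < c * σ := by
      rw [map_sub]
      simp only [ContinuousLinearMap.id_apply] at a1
      refine a1.trans_lt ?_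
      nlinarith [mul_pos hc hσ.1]
    filter_upwards [a4.eventually_lt_const a5, continuous_snd.continuousAt.eventually
      (χ.open_source.mem_nhds a3)] with z b1 b2 _ using ⟨b2, b1⟩
  · have a6 : ContinuousAt (fun z : C2 × E => ‖z.1 - y‖) (w, g w) := by fun_prop
    filter_upwards [a6.eventually_const_lt (not_le.1 hw)] with z b1 b2
    exact absurd b2 (not_le.2 b1)

/-- every point near `g y` lies on a tube, with a controlled derivative -/
theorem through {e u : C2} (he : det2 e u ≠ 0) {r ρ η' : ℝ} (hr : 0 < r) (hρ : 0 < ρ)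
    (hη' : 0 < η') :
    ∃ ε₀ > (0 : ℝ), ∃ η > (0 : ℝ), η ≤ r ∧ ∀ ε ≤ ε₀,
      ∀ (T E : Type) [TopologicalSpace T] [TopologicalSpace E] (G : Family T E),
      Continuous G.p → ∀ (s : T) (g : C2 → E) (y : C2), FH G s g y → Et G g y →
      TubeAt G s g e u r ρ ε → ‖y‖ < η →
      ∀ᶠ x in 𝓝 (g y), ∃ (P : C2 → E) (q₀ : C2) (D : C2 →L[ℂ] C2),
        (∀ q : C2, ‖q.1‖ ≤ ρ / 2 → FH G (G.p x) P q) ∧ ‖q₀.1‖ < ρ / 2 ∧ P q₀ = x ∧
        ‖D - Tw.col e u‖ ≤ η' ∧ fderiv ℂ (fun q => (G.triv (g y) (P q)).2) q₀ =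
          (fderiv ℂ (fun w => (G.triv (g y) (g w)).2) y).comp D := by
  set A := Tw.col e u with hA
  obtain ⟨κ, hκ, hc⟩ := Tw.cover (B := A) (by rw [hA, Tw.det_col]; exact he) hη'
  obtain ⟨η₁, n0, n1⟩ := Metric.mem_nhds_iff.1 (hc (ρ / 4) (by positivity))
  refine ⟨κ * (ρ / 4), by positivity, min η₁ (r / 2), by positivity,
    (min_le_right _ _).trans (by linarith), ?_⟩
  intro ε hε T E _ _ G hp s g y hg hd hT hy
  set χ := G.triv (g y) with hχ
  set M := fderiv ℂ (fun w => (χ (g w)).2) y with hM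
  set Me := M.toContinuousLinearEquivOfDetNeZero hd with hMe
  set Mi : C2 →L[ℂ] C2 := (Me.symm : C2 →L[ℂ] C2) with hMi
  have e1 : ∀ q, Mi (M q) = q := fun q => Me.symm_apply_apply q
  have e2 : ∀ q, M (Mi q) = q := fun q => Me.apply_symm_apply q
  have e3 : Function.Injective Mi := Me.symm.injective
  set K := ‖A‖ + κ with hK
  have K0 : 0 < K := by positivity
  have h1 := approx hg Mi e1 (c := κ / 2 / K) (by positivity)
  have h2 : ∀ᶠ σ in 𝓝[>] (0 : ℝ), σ ∈ Ioo 0 (min (r / 2) (K * (ρ / 4))) :=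
    Ioo_mem_nhdsGT (by positivity)
  obtain ⟨σ, s1, s2, s3⟩ := (h1.and h2).exists
  have s4 : σ < r / 2 := s3.trans_le (min_le_left _ _)
  set σ' := σ / K with hσ'
  have s5 : 0 < σ' := by positivity
  have s6 : σ' < ρ / 4 := by
    rw [hσ', div_lt_iff₀ K0, mul_comm]; exact s3.trans_le (min_le_right _ _)
  have s7 : K * σ' = σ := by rw [hσ']; field_simp
  have s8 : κ / 2 / K * σ = κ / 2 * σ' := by rw [hσ']; field_simp
  have h3 := hT _ fun w _ => s1 w
  have h4 : Tendsto G.p (𝓝 (g y)) (𝓝 s) := by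
    have := hp.tendsto (g y)
    rwa [hg.1.self_of_nhds] at this
  have h5 : Tendsto (fun x => Mi ((χ x).2 - (χ (g y)).2)) (𝓝 (g y)) (𝓝 0) := by
    have : ContinuousAt (fun x => Mi ((χ x).2 - (χ (g y)).2)) (g y) :=
      Mi.continuous.continuousAt.comp
        ((continuous_snd.continuousAt.comp (χ.continuousAt (G.mem _))).sub continuousAt_const)
    simpa using this.tendsto
  filter_upwards [h4.eventually h3, h5.eventually (hc σ' s5), χ.open_source.mem_nhds (G.mem _)]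
    with x ⟨P, ξ, p1, p2⟩ a1 a2
  have x1 : DifferentiableOn ℂ ξ (ball 0 ρ) := fun q hq => (p2 q hq).1.differentiableWithinAt
  have x2 : ∀ q ∈ ball (0 : C2) ρ, ‖ξ q - A q‖ ≤ ε := fun q hq => by
    rw [hA, Tw.col_apply]; exact (p2 q hq).2.1
  have hsub : ball (0 : C2) (ρ / 4) ⊆ ball 0 ρ := ball_subset_ball (by linarith)
  obtain ⟨q₁, c1, c2, -⟩ := @n1 y (mem_ball_zero_iff.2 (hy.trans_le (min_le_left _ _))) ξ
    (x1.mono hsub) fun q hq => (x2 q (hsub hq)).trans hε
  have y1 : ‖y‖ < r / 2 := hy.trans_le (min_le_right _ _)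
  have m1 : ∀ q ∈ ball (0 : C2) σ', ‖q₁ + q‖ < ρ / 2 := fun q hq => by
    have := mem_ball_zero_iff.1 hq
    have := norm_add_le q₁ q
    linarith
  have m2 : ∀ q ∈ ball (0 : C2) σ', ‖ξ (q₁ + q) - y - A q‖ ≤ κ / 2 * σ' := fun q hq => by
    have := lip (h := fun q => ξ q - A q) (κ := κ / 2) hρ
      (x1.sub A.differentiable.differentiableOn) x2 (by linarith)
      (y := q₁) (mem_ball_zero_iff.2 (m1 q hq)) (mem_ball_zero_iff.2 (by linarith))
    rw [add_sub_cancel_left, c2, map_add] at this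
    have e : ξ (q₁ + q) - (A q₁ + A q) - (y - A q₁) = ξ (q₁ + q) - y - A q := by abel
    rw [e] at this
    exact this.trans (mul_le_mul_of_nonneg_left (mem_ball_zero_iff.1 hq).le (by positivity))
  have m3 : ∀ q ∈ ball (0 : C2) σ', ‖ξ (q₁ + q) - y‖ ≤ σ := fun q hq => by
    have b1 := m2 q hq
    have b2 := A.le_opNorm q
    have b3 := norm_add_le (ξ (q₁ + q) - y - A q) (A q)
    have b4 := mul_le_mul_of_nonneg_left (mem_ball_zero_iff.1 hq).le (norm_nonneg A)
    rw [sub_add_cancel] at b3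
    have b5 := mul_pos hκ s5
    rw [← s7, hK]
    nlinarith
  have m4 : ∀ q ∈ ball (0 : C2) σ', P (q₁ + q) ∈ χ.source ∧
      ‖Mi ((χ (P (q₁ + q))).2 - (χ (g y)).2) - (ξ (q₁ + q) - y)‖ < κ / 2 / K * σ := fun q hq => by
    refine (p2 (q₁ + q) (mem_ball_zero_iff.2 (by linarith [m1 q hq]))).2.2 ?_ (m3 q hq)
    have b3 := norm_add_le (ξ (q₁ + q) - y) y
    rw [sub_add_cancel] at b3
    linarith [m3 q hq]
  have m5 : ∀ q ∈ ball (0 : C2) σ', FH G (G.p x) P (q₁ + q) := fun q hq =>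
    p1 _ ((norm_fst_le _).trans_lt (by linarith [m1 q hq]))
  have m6 : ∀ q ∈ ball (0 : C2) σ',
      HasFDerivAt (fun q => Mi ((χ (P (q₁ + q))).2 - (χ (g y)).2))
        (Mi.comp (fderiv ℂ (fun q => (χ (P q)).2) (q₁ + q))) q := fun q hq => by
    have b1 := ((m5 q hq).diff (m4 q hq).1).hasFDerivAt
    have b2 := (b1.comp q ((hasFDerivAt_id q).const_add q₁)).sub_const (χ (g y)).2
    have b3 := Mi.hasFDerivAt.comp q b2
    simpa [Function.comp_def] using b3
  obtain ⟨q, d1, d2, d3⟩ := a1 (fun q => Mi ((χ (P (q₁ + q))).2 - (χ (g y)).2))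
    (fun q hq => (m6 q hq).differentiableAt.differentiableWithinAt) fun q hq => by
      have b1 := (m4 q hq).2
      have b2 := m2 q hq
      have b3 := norm_add_le (Mi ((χ (P (q₁ + q))).2 - (χ (g y)).2) - (ξ (q₁ + q) - y))
        (ξ (q₁ + q) - y - A q)
      rw [sub_add_sub_cancel] at b3
      linarith
  have d4 := mem_ball_zero_iff.2 d1
  rw [(m6 q d4).fderiv] at d3
  refine ⟨P, q₁ + q, _, fun q hq => p1 q (by linarith), (norm_fst_le _).trans_lt (m1 q d4), ?_,
    d3, ?_⟩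
  · exact Tw.eq_of_coord (m4 q d4).1 a2 (m5 q d4).1.self_of_nhds (sub_left_injective (e3 d2))
  · refine ContinuousLinearMap.ext fun v => ?_
    simp only [ContinuousLinearMap.comp_apply, e2]

end TwE

theorem twoE (hC : StCross) : StTwoE := by
  intro e u e' u' he he' hu r ρ hr hρ
  have c1 : Continuous fun D : (C2 →L[ℂ] C2) × (C2 →L[ℂ] C2) => D.1.det :=
    ContinuousLinearMap.continuous_det.comp continuous_fst
  have c2 : Continuous fun D : (C2 →L[ℂ] C2) × (C2 →L[ℂ] C2) =>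
      det2 (D.2 (0, 1)) (D.1 (0, 1)) := by
    unfold det2
    fun_prop
  have h1 : ∀ᶠ D : (C2 →L[ℂ] C2) × (C2 →L[ℂ] C2) in 𝓝 (Tw.col e u, Tw.col e' u'),
      D.1.det ≠ 0 ∧ det2 (D.2 (0, 1)) (D.1 (0, 1)) ≠ 0 := by
    refine (c1.continuousAt.eventually_ne ?_).and (c2.continuousAt.eventually_ne ?_)
    · rw [Tw.det_col]; exact he
    · simp only [Tw.col_apply, zero_smul, one_smul, zero_add]
      refine fun h => hu ?_
      unfold det2 at h ⊢
      linear_combination -h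
  obtain ⟨η', hη', h2⟩ := nhds_basis_closedBall.mem_iff.1 h1
  obtain ⟨ε₁, a0, η₁, a1, a2, a3⟩ := TwE.through he hr hρ hη'
  obtain ⟨ε₂, b0, η₂, b1, -, b3⟩ := TwE.through he' hr hρ hη'
  refine ⟨min ε₁ ε₂, by positivity, min η₁ η₂, by positivity, ?_⟩
  intro T E _ _ _ G hp s g hg hT hT' y hy
  have y1 := hy.trans_le (min_le_left _ _)
  obtain ⟨g1, g2⟩ := hg y (mem_closedBall_zero_iff.2 (y1.le.trans a2))
  filter_upwards [a3 _ (min_le_left _ _) T E G hp.continuous s g y g1 g2 hT y1,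
    b3 _ (min_le_right _ _) T E G hp.continuous s g y g1 g2 hT' (hy.trans_le (min_le_right _ _)),
    (G.triv (g y)).open_source.mem_nhds (G.mem _)]
    with x ⟨P, q₀, D, p1, p2, p3, p4, p5⟩ ⟨P', q₁, D', r1, r2, r3, r4, r5⟩ hx
  have h5 := @h2 (D, D') (by
    rw [mem_closedBall, Prod.dist_eq, dist_eq_norm, dist_eq_norm]
    exact max_le p4 r4)
  refine Tw.core hC hp hx p1 r1 p2 r2 p3 r3 ?_ ?_
  · rw [p5, Tw.det_comp]; exact mul_ne_zero g2 h5.1
  · rw [p5, r5, ContinuousLinearMap.comp_apply, ContinuousLinearMap.comp_apply, Tw.det2_map]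
    exact mul_ne_zero g2 h5.2

end Vale.Agent.P290Z.Odd
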