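import Vale.Agent.P290Z.Odd.Spec
import Vale.Agent.P290Z.Deform

/-! P290Z, part II'': the neighbourhood of a point on two necks. -/

open Set Filter Metric
open scoped Topology Manifold ContDiff

namespace Vale.Agent.P290Z.Odd

open Vale.Agent.P290 Vale.Agent.P290.H805 Vale.Agent.P290.R2.H596

section

variable {T E : Type} [TopologicalSpace T] [TopologicalSpace E] {G : Family T E} {s : T}
  {g g' : C2 → E} {e u : C2} {r r' ρ ρ' ε ε' : ℝ}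

theorem guard_mem {S : Set C2} (hS : IsClosed S) {𝒪 : Set (C2 × E)} {y : C2} {x : E}
    (h : y ∈ S → 𝒪 ∈ 𝓝 (y, x)) : {a : C2 × E | a.1 ∈ S → a ∈ 𝒪} ∈ 𝓝 (y, x) :=
  Dfm.imp_mem (P := fun a => a ∈ 𝒪) hS h

theorem TubeAt.mono (h : TubeAt G s g e u r ρ ε) (h1 : r' ≤ r) (h2 : ρ' ≤ ρ) (h3 : ε ≤ ε') :
    TubeAt G s g e u r' ρ' ε' := by
  intro 𝒪 h𝒪
  filter_upwards [h _ fun y _ => guard_mem (S := closedBall 0 r') isClosed_closedBall (h𝒪 y)]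
    with t ⟨P, ξ, a1, a2⟩
  refine ⟨P, ξ, fun q hq => a1 q (hq.trans_le h2), fun q hq => ?_⟩
  obtain ⟨b1, b2, b3⟩ := a2 q (ball_subset_ball h2 hq)
  exact ⟨b1, b2.trans h3, fun b => b3 (b.trans h1) (mem_closedBall_zero_iff.2 b)⟩

theorem TubeAt.shift {H : C2 → C2} (h : TubeAt G s g' e u r ρ ε)
    (hH : ∀ y ∈ closedBall (0 : C2) r, DifferentiableAt ℂ H y ∧ ‖H y‖ ≤ ε ∧ g' y = g (y + H y))
    (hρ : ∀ q ∈ ball (0 : C2) ρ, ‖q.1 • e + q.2 • u‖ + ε ≤ r) :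
    TubeAt G s g e u r' ρ (2 * ε) := by
  intro 𝒪 h𝒪
  have h1 : ∀ y ∈ closedBall (0 : C2) r, (fun a : C2 × E => (a.1 + H a.1, a.2)) ⁻¹'
      {a : C2 × E | a.1 ∈ closedBall (0 : C2) r' → a ∈ 𝒪} ∈ 𝓝 (y, g' y) := fun y hy => by
    refine ContinuousAt.preimage_mem_nhds (ContinuousAt.prodMk (continuousAt_fst.add
      (ContinuousAt.comp (g := H) (f := Prod.fst) (hH y hy).1.continuousAt continuousAt_fst))
      continuousAt_snd) ?_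
    rw [(hH y hy).2.2]
    exact guard_mem isClosed_closedBall (h𝒪 _)
  filter_upwards [h _ h1] with t ⟨P, ξ, a1, a2⟩
  refine ⟨P, fun q => ξ q + H (ξ q), a1, fun q hq => ?_⟩
  obtain ⟨b1, b2, b3⟩ := a2 q hq
  have b4 : ‖ξ q‖ ≤ r := by
    linarith [norm_le_norm_sub_add (ξ q) (q.1 • e + q.2 • u), hρ q hq]
  obtain ⟨c1, c2, -⟩ := hH _ (mem_closedBall_zero_iff.2 b4)
  refine ⟨b1.add (c1.comp q b1), ?_, fun b => b3 b4 (mem_closedBall_zero_iff.2 b)⟩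
  rw [add_sub_right_comm]
  linarith [norm_add_le (ξ q - (q.1 • e + q.2 • u)) (H (ξ q))]

/-- the graph over a compact set can be separated from finitely many points -/
theorem exists_sep [T2Space E] {K : Set C2} (hK : IsCompact K) {π : C2 → E}
    (hπ : ∀ y ∈ K, ContinuousAt π y) {k : ℕ} {a : Fin k → E} (h : ∀ y ∈ K, π y ∉ range a) :
    ∃ (U : Set E) (N : Fin k → Set E), (∀ y ∈ K, U ∈ 𝓝 (π y)) ∧ (∀ i, N i ∈ 𝓝 (a i)) ∧
      ∀ i, Disjoint U (N i) := by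
  have h1 := hK.image_of_continuousOn fun y hy => (hπ y hy).continuousWithinAt
  obtain ⟨U, V, a1, a2, a3, a4, a5⟩ := SeparatedNhds.of_isCompact_isCompact h1
    (finite_range a).isCompact (Set.disjoint_left.2 (by rintro _ ⟨y, hy, rfl⟩; exact h y hy))
  exact ⟨U, fun _ => V, fun y hy => a1.mem_nhds (a3 (mem_image_of_mem _ hy)),
    fun i => a2.mem_nhds (a4 (mem_range_self i)), fun _ => a5⟩

end

theorem w (hD : StDeform) (hC : StCmp) (hQ : StTubeQ) (h2 : StTwoE) : StW := by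
  intro T E T' X _ _ _ _ _ _ _ F G vol vol' hp hG hv hv' s s' k Y a π l₁ l₂ C₀ J₀ hC₀ c1 c2 hJ hπ
    hper d1 d2 d3
  obtain ⟨C₁, ρ₁, o1, e1, k1, m1, p1, f1⟩ := hD T E F vol hv s π l₁ C₀ J₀ hC₀ c1 hJ
    (fun y hy => ⟨(hπ y hy).1, (hπ y hy).2.1⟩) fun i y hy _ => (hper i y hy).1
  obtain ⟨C₂, ρ₂, o2, e2, k2, m2, p2, f2⟩ := hD T E F vol hv s π l₂ C₀ J₀ hC₀ c2 hJ
    (fun y hy => ⟨(hπ y hy).1, (hπ y hy).2.1⟩) fun i y hy _ => (hper i y hy).2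
  obtain ⟨r₁, hr₁, σ₁, hσ₁, b1, t1⟩ := hQ l₁ C₁ ρ₁ o1 e1 p1 d1
  obtain ⟨r₂, hr₂, σ₂, hσ₂, b2, t2⟩ := hQ l₂ C₂ ρ₂ o2 e2 p2 d2
  have s1 : closedBall (0 : C2) (min r₁ r₂) ⊆ C₁ :=
    (closedBall_subset_closedBall (min_le_left _ _)).trans b1
  have s2 : closedBall (0 : C2) (min r₁ r₂) ⊆ C₂ :=
    (closedBall_subset_closedBall (min_le_right _ _)).trans b2
  have z0 : (0 : C2) ∈ C₀ := k1 (subset_closure (b1 (mem_closedBall_self hr₁.le)))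
  obtain ⟨r, hr, hr', cmp⟩ := hC T E F s π (min r₁ r₂) (lt_min hr₁ hr₂)
    (fun y hy => (hπ y (k1 (subset_closure (s1 hy)))).1)
    (right_ne_zero_of_mul (ne_of_eq_of_ne (hπ 0 z0).2.1 hJ))
  obtain ⟨ρ, hρ, g1, g2, g3⟩ : ∃ ρ > (0 : ℝ), ρ ≤ σ₁ ∧ ρ ≤ σ₂ ∧
      ∀ q ∈ ball (0 : C2) ρ, ‖q.1 • l₂ 2 + q.2 • Slab.UU l₂‖ < r / 2 := by
    have h1 : ∀ᶠ q : C2 in 𝓝 0, ‖q.1 • l₂ 2 + q.2 • Slab.UU l₂‖ < r / 2 :=
      ContinuousAt.eventually_lt (by fun_prop) continuousAt_const (by simpa using hr)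
    obtain ⟨ρ, h3, h4⟩ := nhds_basis_ball.mem_iff.1 h1
    exact ⟨min ρ (min σ₁ σ₂), by positivity, (min_le_right _ _).trans (min_le_left _ _),
      (min_le_right _ _).trans (min_le_right _ _),
      fun q hq => h4 (ball_subset_ball (min_le_left _ _) hq)⟩
  obtain ⟨ε, hε, η, hη, two⟩ := h2 _ _ _ _ d1 d2 d3 r ρ hr hρ
  have hε' : 0 < min (ε / 2) (r / 2) := by positivity
  obtain ⟨δ₁, hδ₁, u1⟩ := t1 ε hε
  obtain ⟨δ₂, hδ₂, u2⟩ := t2 _ hε'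
  obtain ⟨𝒪, h𝒪, B, hB, cmp⟩ := cmp _ hε' (min η r) (lt_min hη hr)
  have k3 : closure C₁ ∪ closure C₂ ⊆ C₀ := union_subset k1 k2
  obtain ⟨U, N, n1, n2, n3⟩ := exists_sep (m1.union m2) (fun y hy => (hπ y (k3 hy)).1.2.1)
    fun y hy => (hπ y (k3 hy)).2.2
  have n4 : ∀ y ∈ closure C₁ ∪ closure C₂, 𝒪 ∩ Prod.snd ⁻¹' U ∈ 𝓝 (y, π y) := fun y hy =>
    inter_mem (h𝒪 y) (continuousAt_snd.preimage_mem_nhds (n1 y hy))
  refine ⟨B, hB, N, n2, ?_⟩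
  filter_upwards [f1 (min δ₁ (1 / 2)) (by positivity) _ fun y hy => n4 y (Or.inl hy),
    f2 δ₂ hδ₂ _ fun y hy => n4 y (Or.inr hy)] with t ⟨p, E₁, q1, q2⟩ ⟨p', E₂, q3, q4⟩ D hD x hx hxt
  have n5 : ∀ y ∈ U, y ∉ range D.fix := by
    rintro _ hy ⟨i, rfl⟩
    exact Set.disjoint_left.1 (n3 i) hy (hD i)
  obtain ⟨w1, w2⟩ := cmp t p fun y hy => ⟨(q1 y (s1 hy)).1, (q1 y (s1 hy)).2.1⟩
  obtain ⟨H, hH⟩ := w2 p' fun y hy => ⟨(q3 y (s2 hy)).1, (q3 y (s2 hy)).2.1⟩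
  obtain ⟨y, hy, rfl⟩ := w1 x hx hxt
  have s3 : closedBall (0 : C2) r ⊆ C₁ := (closedBall_subset_closedBall hr').trans s1
  refine ⟨n5 _ (q1 y (s3 (mem_closedBall_zero_iff.2 (hy.le.trans (min_le_right _ _))))).2.2, ?_⟩
  refine two T' _ G hG s' (fun y => D.q (p y)) (fun z hz => ?_) ?_ ?_ y
    (hy.trans_le (min_le_left _ _))
  · obtain ⟨a1, a2⟩ := D.hol p z (q1 z (s3 hz)).1 (n5 _ (q1 z (s3 hz)).2.2)
    have a3 : J₀⁻¹ * jac F vol t p z ≠ 0 := fun e => by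
      have := ((q2.jhol z (s3 hz)).2).trans (min_le_right _ _)
      rw [e] at this
      norm_num at this
    have a4 := mul_ne_zero D.c_ne (right_ne_zero_of_mul a3)
    rw [← a2] at a4
    exact ⟨a1, right_ne_zero_of_mul a4⟩
  · exact (u1 T E T' X F G vol vol' hp hv hv' t s' k Y D p E₁ _
      (fun y hy => ⟨(q1 y hy).1, n5 _ (q1 y hy).2.2⟩)
      ⟨q2.inj, fun i y a b => ⟨(q2.hol i y a b).1, (q2.hol i y a b).2.trans (min_le_left _ _)⟩,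
        q2.rel, fun y a => ⟨(q2.jhol y a).1, (q2.jhol y a).2.trans (min_le_left _ _)⟩,
        q2.jrel⟩).mono (hr'.trans (min_le_left _ _)) g1 le_rfl
  · refine (TubeAt.shift (H := H) ((u2 T E T' X F G vol vol' hp hv hv' t s' k Y D p' E₂ _
      (fun y hy => ⟨(q3 y hy).1, n5 _ (q3 y hy).2.2⟩) q4).mono (hr'.trans (min_le_right _ _)) g2
      le_rfl) (fun y hy => ⟨(hH y hy).1, (hH y hy).2.1, by rw [(hH y hy).2.2]⟩)
      fun q hq => ?_).mono le_rfl le_rfl ?_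
    · linarith [g3 q hq, min_le_right (ε / 2) (r / 2)]
    · linarith [min_le_left (ε / 2) (r / 2)]

end Vale.Agent.P290Z.Odd
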