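import Vale.Agent.P290Z.Spec3
import Vale.Agent.P290Z.W.BRConst
import Vale.Agent.P290Z.Main
import Vale.Agent.P290Z.Odd.II2
import Vale.Agent.P290Z.Odd.W
import Vale.Agent.P290Z.Odd.Cmp
import Vale.Agent.P290Z.Odd.DefP
import Vale.Agent.P290Z.Odd.Disc
import Vale.Agent.P290Z.Odd.TwoE
import Vale.Agent.P290Z.Odd.Necks

/-! P290Z, part II'': necks descend, for marked families of K3 surfaces. -/

open Set Filter Metric
open scoped Topology Manifold ContDiff

namespace Vale.Agent.P290Z.Odd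

open Vale.Agent.P290 Vale.Agent.P290.H805 Vale.Agent.P290.R2.H596
open Vale.Agent.P290Z.W.Kur Vale.Agent.P290Z.W.BR

section

variable {A B C : Type} [TopologicalSpace A] [ChartedSpace C2 A] [TopologicalSpace B]
  [ChartedSpace C2 B] [TopologicalSpace C] [ChartedSpace C2 C]

/-- the Jacobian determinant in the preferred charts -/
noncomputable def Dt (b : A → B) (x : A) : ℂ :=
  (fderiv ℂ (fun w => chartAt C2 (b x) (b ((chartAt C2 x).symm w))) (chartAt C2 x x)).det

theorem hol_comp {c : A → B} {b : B → C} {x : A} (hb : All.Hol b (c x)) (hc : All.Hol c x) :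
    All.Hol (fun y => b (c y)) x ∧ Dt (fun y => b (c y)) x = Dt b (c x) * Dt c x := by
  have e0 : (chartAt C2 x).symm (chartAt C2 x x) = x := (chartAt C2 x).left_inv (mem_chart_source _ _)
  have c1 : ContinuousAt (fun w => c ((chartAt C2 x).symm w)) (chartAt C2 x x) :=
    ContinuousAt.comp (g := c) (e0.symm ▸ hc.1)
      ((chartAt C2 x).continuousAt_symm (mem_chart_target _ _))
  have h1 : (fun w => chartAt C2 (b (c x)) (b (c ((chartAt C2 x).symm w)))) =ᶠ[𝓝 (chartAt C2 x x)]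
      fun w => chartAt C2 (b (c x)) (b ((chartAt C2 (c x)).symm
        (chartAt C2 (c x) (c ((chartAt C2 x).symm w))))) := by
    filter_upwards [c1.preimage_mem_nhds (t := (chartAt C2 (c x)).source)
      (by rw [e0]; exact chart_source_mem_nhds C2 (c x))] with z hz
    rw [(chartAt C2 (c x)).left_inv hz]
  have h2 : DifferentiableAt ℂ (fun w => chartAt C2 (b (c x)) (b ((chartAt C2 (c x)).symm w)))
      (chartAt C2 (c x) (c ((chartAt C2 x).symm (chartAt C2 x x)))) := by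
    rw [e0]; exact hb.2
  refine ⟨⟨ContinuousAt.comp (f := c) hb.1 hc.1, (DifferentiableAt.comp
    (f := fun w => chartAt C2 (c x) (c ((chartAt C2 x).symm w))) _ h2 hc.2).congr_of_eventuallyEq
    h1⟩, ?_⟩
  rw [Dt, h1.fderiv_eq, R2.H762.det_comp h2 hc.2, e0]
  rfl

theorem dt_id (x : A) : Dt (fun y => y) x = 1 := by
  have h1 : (fun w => chartAt C2 x ((chartAt C2 x).symm w)) =ᶠ[𝓝 (chartAt C2 x x)] id := by
    filter_upwards [(chartAt C2 x).open_target.mem_nhds (mem_chart_target _ _)] with z hz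
    exact (chartAt C2 x).right_inv hz
  rw [Dt, h1.fderiv_eq, fderiv_id]
  exact LinearMap.det_id

end

theorem cov {Z X X' : W.K3} {T T' : Type} [TopologicalSpace T] [TopologicalSpace T']
    (M : MPre X T) (M' : MPre X' T') {t : T} {s : T'} (D : Top.Cover Z (M'.k3 s)) {k : ℕ}
    {f : Fin k → Z.X} (hf : range f = D.Fix) (e : Z.X ≃ₜ (M.k3 t).X) (he : Bih e) :
    Nonempty (Cov M.F M'.F M.vol M'.vol t s k (Fib.val '' (D.q '' D.Fixᶜ))) := by
  obtain ⟨c, hc⟩ := Cst.stConst T _ M.F M.vol M.rel t (M.k3 t).compact (M.k3 t).conn Z e.symm he.2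
  obtain ⟨x₀⟩ : Nonempty (Fib M.F t) := (M.k3 t).conn.toNonempty
  have h0 : ∀ z : Fib M.F t, z.val ∈ range (fun i => (e (f i)).val) ↔ e.symm z ∈ D.Fix := fun z => by
    rw [← hf]
    exact exists_congr fun i => (Fib.ext_iff.symm.trans e.toEquiv.eq_symm_apply.symm)
  refine ⟨⟨fun i => (e (f i)).val, fun i => (e (f i)).prop,
    fun x => (D.q (e.symm (Tw.lift x₀ id x))).val, c, fun h => ?_, fun g y hg hy => ?_, ?_,
    fun g c₀ h1 h2 h3 => ?_⟩⟩
  · have h1 := (hol_comp (he.1 _) (he.2 x₀)).2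
    simp only [e.apply_symm_apply] at h1
    have h2 := hc x₀
    rw [h, zero_mul] at h2
    exact mul_ne_zero (W.H445.Om_ne_zero Z _)
      (right_ne_zero_of_mul_eq_one (h1.symm.trans (dt_id _))) h2
  · have a0 := Tw.fh_lift x₀ hg
    have a1 : All.Hol (Tw.lift x₀ g) y := ⟨isInducing_val.continuousAt_iff.2 a0.2.1, a0.2.2⟩
    have a2 : (fun w => (Tw.lift x₀ g w).val) =ᶠ[𝓝 y] g := hg.1.mono fun w hw =>
      congrArg Fib.val (Tw.lift_eq _ hw)
    have a3 : e.symm (Tw.lift x₀ g y) ∉ D.Fix := fun h => hy (a2.self_of_nhds ▸ (h0 _).2 h)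
    obtain ⟨a4, a5⟩ := hol_comp (he.2 _) a1
    obtain ⟨a6, a7⟩ := hol_comp (c := fun w => e.symm (Tw.lift x₀ g w)) (D.hol _ a3) a4
    refine ⟨⟨.of_forall fun w => Fib.prop _, continuous_val.continuousAt.comp a6.1, a6.2⟩, ?_⟩
    have a8 := D.jac _ a3
    have a9 := hc (Tw.lift x₀ g y)
    have b1 : jac M.F M.vol t g y = M.vol (Tw.lift x₀ g y).val
        (t, (M.F.triv (Tw.lift x₀ g y).val (Tw.lift x₀ g y).val).2) * Dt (Tw.lift x₀ g) y :=
      (Dfm.jac_congr M.vol t a2).symm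
    have b2 := M'.fvol_eq s (D.q (e.symm (Tw.lift x₀ g y))) (mem_chart_target C2 _)
    rw [b1, ← mul_assoc, ← a9]
    change M'.vol _ _ * Dt (fun w => D.q (e.symm (Tw.lift x₀ g w))) y = W.H445.Om Z _ * Dt _ _ * _
    rw [a7, a5, ← a8, ← mul_assoc, ← mul_assoc]
    exact congrArg (· * _ * _ * _) b2.symm
  · rintro _ ⟨_, ⟨z, hz, rfl⟩, rfl⟩
    refine ⟨(e z).val, (e z).prop, fun h => hz (by simpa using (h0 _).1 h), ?_⟩
    rw [Tw.lift_eq x₀ (u := id) (e z).prop]
    exact congrArg (fun w => (D.q w).val) (e.symm_apply_apply z)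
  · have a2 : ∀ᶠ w in 𝓝 c₀, (Tw.lift x₀ g w).val = g w := h1.mono fun w hw => by
      rw [Tw.lift_eq _ hw.1.self_of_nhds]
    obtain ⟨y, hy⟩ := D.lift (fun w => e.symm (Tw.lift x₀ g w)) c₀
      ((h0 _).1 (a2.self_of_nhds.symm ▸ h2))
      (h1.mono fun w hw => (Trn.hol_md (he.2 _)).comp w (Tw.md_lift x₀ hw)) (by
        filter_upwards [h3, nhdsWithin_le_nhds a2] with w b1 b2 b3
        exact b1 (by rw [← b2, e.symm.injective b3, a2.self_of_nhds]))
    refine ⟨y.val, (Dsc.fh_of_md hy).congr (.of_forall fun w => ?_)⟩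
    exact (Function.apply_update (fun _ => Fib.val) _ c₀ y w).symm

theorem top (h : StII2) (hK : StKum) (hB : StB) : Top.StII2 := by
  rintro Z X' T' _ _ M' s ⟨X, T, _, _, M, s₀, a, h1, h2, h3⟩ ⟨D⟩
  obtain ⟨k, f, -, hf⟩ := D.fin.fin_param
  filter_upwards [h T _ T' X'.X M.F M'.F M.vol M'.vol M'.p_eq M.isProperMap_p M'.isProperMap_p M.rel
    M'.rel s₀ s k _ (hK T _ M.F M.vol M.rel s₀ h1)
    (h2.frequently (.of_forall fun n => (h3 n).elim (cov M M' D hf))) fun x =>
      (D.cover (M'.homeo s x)).imp (mem_image_of_mem Fib.val) fun ⟨g, R, a1, a2, a3, a4⟩ =>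
        ⟨fun c => (g c).val, R, a1, congrArg Fib.val a2, fun c hc => Dsc.fh_of_md (a3 c hc),
          fun c hc => mem_image_of_mem Fib.val (a4 c hc)⟩] with t ht using hB (M'.k3 t).X ht

theorem ii20 : StII2 :=
  ii2 necks (w deform cmp (tubeQ neck0 defP) (twoE cross0)) discs move lift (discFam spr0 disc0)

/-- **II''** -/
theorem stII2 : Top.StII2 := top ii20 kum thmB0

end Vale.Agent.P290Z.Odd
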