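import Vale.Agent.P290Z.Odd.Spec
import Vale.Agent.P290Z.Two.A
import Vale.Agent.P290Z.Deform

/-! P290Z, part II'': pulled back families and the tubes of the image of a neck. -/

open Set Filter Metric
open scoped Topology Manifold ContDiff

namespace Vale.Agent.P290Z.Odd

open Vale.Agent.P290 Vale.Agent.P290.H805 Vale.Agent.P290.R2.H596

section pull

variable {T E E₁ : Type} [TopologicalSpace T] [TopologicalSpace E] [TopologicalSpace E₁]
  (G : Family T E) {Q : E₁ → E} (hQ : IsLocalHomeomorph Q)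

theorem sheet_symm (x : E₁) {a : T × C2}
    (h : a ∈ ((hQ x).choose.trans (G.triv (Q x))).target) :
    Q (((hQ x).choose.trans (G.triv (Q x))).symm a) = (G.triv (Q x)).symm a := by
  rw [congrFun (hQ x).choose_spec.2]
  exact (hQ x).choose.right_inv h.2

theorem sheet_apply (x y : E₁) :
    (hQ x).choose.trans (G.triv (Q x)) y = G.triv (Q x) (Q y) := by
  rw [congrFun (hQ x).choose_spec.2 y]
  rfl

theorem sheet_source {x y : E₁} (h : y ∈ ((hQ x).choose.trans (G.triv (Q x))).source) :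
    Q y ∈ (G.triv (Q x)).source := by
  rw [congrFun (hQ x).choose_spec.2 y]
  exact h.2

theorem sheet_tr (x x' : E₁) {t : T} {v : C2}
    (h : (t, v) ∈ ((hQ x).choose.trans (G.triv (Q x))).target) :
    (fun w => ((hQ x').choose.trans (G.triv (Q x'))
      (((hQ x).choose.trans (G.triv (Q x))).symm (t, w))).2) =ᶠ[𝓝 v]
      fun w => (G.triv (Q x') ((G.triv (Q x)).symm (t, w))).2 := by
  filter_upwards [(Continuous.prodMk_right t).continuousAt.eventually
    ((OpenPartialHomeomorph.open_target _).mem_nhds h)] with w hw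
  rw [sheet_apply, sheet_symm G hQ x hw]

/-- the pull back of a family under a local homeomorphism -/
noncomputable def pull : Family T E₁ where
  p x := G.p (Q x)
  triv x := (hQ x).choose.trans (G.triv (Q x))
  mem x := ⟨(hQ x).choose_spec.1, by
    change (hQ x).choose x ∈ (G.triv (Q x)).source
    rw [← congrFun (hQ x).choose_spec.2 x]
    exact G.mem _⟩
  fst x y hy := by rw [sheet_apply, G.fst _ _ (sheet_source G hQ hy)]
  hol x x' t v h h' := by
    refine (G.hol (Q x) (Q x') t v h.1 ?_).congr_of_eventuallyEq (sheet_tr G hQ x x' h)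
    rw [← sheet_symm G hQ x h]
    exact sheet_source G hQ h'

theorem pull_triv (x y : E₁) : (pull G hQ).triv x y = G.triv (Q x) (Q y) := sheet_apply G hQ x y

theorem pull_rel {vol : E → T × C2 → ℂ} (h : RelForm G vol) :
    RelForm (pull G hQ) fun x => vol (Q x) := by
  intro x t w hw
  obtain ⟨h1, h2, h3, h4⟩ := h (Q x) t w hw.1
  refine ⟨h1, h2, h3, fun x' hx' => ?_⟩
  have h5 := sheet_tr G hQ x x' hw
  have h6 := h4 (Q x') (by rw [← sheet_symm G hQ x hw]; exact sheet_source G hQ hx')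
  rw [← h5.fderiv_eq] at h6
  exact h6.trans (congrArg (fun a => vol (Q x') (t, a) * _) h5.self_of_nhds.symm)

theorem pull_fh {V : Type} [NormedAddCommGroup V] [NormedSpace ℂ V] {t : T} {u : V → E₁} {z : V} :
    FH (pull G hQ) t u z ↔ ContinuousAt u z ∧ FH G t (fun y => Q (u y)) z := by
  unfold FH
  simp only [pull_triv]
  exact ⟨fun h => ⟨h.2.1, h.1, hQ.continuous.continuousAt.comp h.2.1, h.2.2⟩,
    fun h => ⟨h.2.1, h.1, h.2.2.2⟩⟩

theorem pull_jac (vol : E → T × C2 → ℂ) (t : T) (u : C2 → E₁) (z : C2) :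
    jac (pull G hQ) (fun x => vol (Q x)) t u z = jac G vol t (fun y => Q (u y)) z := by
  simp only [jac, pull_triv]

theorem TubeAt.push {s : T} {g : C2 → E₁} {e u : C2} {r ρ ε : ℝ}
    (h : TubeAt (pull G hQ) s g e u r ρ ε) : TubeAt G s (fun y => Q (g y)) e u r ρ ε := by
  intro 𝒪 h𝒪
  have c : Continuous fun a : C2 × E₁ => (a.1, Q a.2) :=
    continuous_fst.prodMk (hQ.continuous.comp continuous_snd)
  filter_upwards [h _ fun y hy => c.continuousAt.preimage_mem_nhds (x := (y, g y)) (h𝒪 y hy)]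
    with t ⟨P, ξ, h1, h2⟩
  exact ⟨fun q => Q (P q), ξ, fun q hq => ((pull_fh G hQ).1 (h1 q hq)).2, h2⟩

end pull

theorem lh_congr {A B : Type} [TopologicalSpace A] [TopologicalSpace B] {f f' : A → B} {a : A}
    (h : IsLocalHomeomorphOn f {a}) (e : f' =ᶠ[𝓝 a] f) : IsLocalHomeomorphOn f' {a} := by
  refine IsLocalHomeomorphOn.mk _ _ ?_
  rintro _ rfl
  obtain ⟨φ, h1, rfl⟩ := h _ rfl
  obtain ⟨U, h2, h3, h4⟩ := eventually_nhds_iff.1 e
  exact ⟨φ.restrOpen U h3, ⟨h1, h4⟩, fun x hx => h2 x hx.2⟩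

/-- etale maps are local homeomorphisms onto the fibre -/
theorem lh_lift {T E : Type} [TopologicalSpace T] [TopologicalSpace E] {F : Family T E} {t : T}
    (x₀ : Fib F t) {u : C2 → E} {y : C2} (h : ∀ᶠ w in 𝓝 y, FH F t u w) (hd : Et F u y) :
    IsLocalHomeomorphOn (Tw.lift x₀ u) {y} := by
  have h0 := h.self_of_nhds
  have h1 := h0.eventually_source (F.mem (u y))
  set f : C2 → C2 := fun w => (F.triv (u y) (u w)).2 with hf
  replace hd : (fderiv ℂ f y).det ≠ 0 := hd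
  have c0 : ContDiffAt ℂ (1 : ℕ) f y :=
    contDiffAt_of_eventually ((h.and h1).mono fun w hw => hw.1.diff hw.2) 1
  have d0 : HasFDerivAt f
      ((fderiv ℂ f y).toContinuousLinearEquivOfDetNeZero hd : C2 →L[ℂ] C2) y := by
    rw [ContinuousLinearMap.coe_toContinuousLinearEquivOfDetNeZero]
    exact h0.2.2.hasFDerivAt
  have hn : ((1 : ℕ) : WithTop ℕ∞) ≠ 0 := by simp
  have l1 : IsLocalHomeomorphOn f {y} := by
    rintro _ rfl
    exact ⟨c0.toOpenPartialHomeomorph f d0 hn, c0.mem_toOpenPartialHomeomorph_source d0 hn, rfl⟩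
  let x : Fib F t := ⟨u y, h0.1.self_of_nhds⟩
  refine lh_congr ((IsLocalHomeomorphOn.OpenPartialHomeomorph.isLocalHomeomorphOn
    (fibChart F t x).symm).comp l1 ?_) ?_
  · rintro _ rfl
    exact (fibChart F t x).map_source (x := x) (F.mem _)
  · filter_upwards [h0.1, h1] with w a1 a2
    rw [Tw.lift_eq _ a1]
    exact ((fibChart F t x).left_inv (x := ⟨u w, a1⟩) a2).symm

/-- the fibres of a family with total space a product -/
def fibH {T X : Type} [TopologicalSpace T] [TopologicalSpace X] (G : Family T (T × X))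
    (hp : ∀ a, G.p a = a.1) (t : T) : Fib G t ≃ₜ X where
  toFun y := y.val.2
  invFun x := ⟨(t, x), hp _⟩
  left_inv y := Fib.ext (Prod.ext ((hp _).symm.trans y.prop).symm rfl)
  right_inv _ := rfl
  continuous_toFun := continuous_snd.comp continuous_val
  continuous_invFun := isInducing_val.continuous_iff.2 (Continuous.prodMk_right t)

theorem tubeAt_of_flat (hN : StNeck) (hD : StDefP) (l : Fin 3 → C2) (C : Set C2) (ρ₀ : ℝ)
    (hC : IsOpen C) (hl : Cell l ⊆ C) (h0 : 0 < ρ₀) (hd : det2 (l 2) (Slab.UU l) ≠ 0) :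
    ∃ r > (0 : ℝ), ∃ ρ > (0 : ℝ), closedBall (0 : C2) r ⊆ C ∧ ∀ ε > (0 : ℝ), ∃ δ > (0 : ℝ),
      ∀ (T E : Type) [TopologicalSpace T] [TopologicalSpace E] [T2Space E] (G : Family T E)
        (vol : E → T × C2 → ℂ), RelForm G vol → ∀ (s : T) (g : C2 → E) (Ei : Fin 3 → C2 → C2)
        (c : ℂ), (∀ y ∈ C, FH G s g y) → Flat l C ρ₀ δ g Ei (fun y => c * jac G vol s g y) →
        TubeAt G s g (l 2) (Slab.UU l) r ρ ε := by
  obtain ⟨C₁, ρ₁, a1, a2, a3, -, a5, hdef⟩ := hD l C ρ₀ hC hl h0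
  obtain ⟨ρ, hρ, hneck⟩ := hN l C₁ ρ₁ a1 a2 a5 (by rwa [Slab.det_UU, neg_ne_zero] at hd)
  obtain ⟨r, hr, hrC⟩ := nhds_basis_closedBall.mem_iff.1
    (a1.mem_nhds (a2 ⟨fun _ => 0, fun _ => ⟨le_rfl, zero_le_one⟩, by simp⟩ : (0 : C2) ∈ C₁))
  refine ⟨r, hr, ρ, hρ, hrC.trans (subset_closure.trans a3), fun ε hε => ?_⟩
  obtain ⟨δ₁, hδ₁, h1⟩ := hneck ε hε
  obtain ⟨δ, hδ, h2⟩ := hdef δ₁ hδ₁
  refine ⟨δ, hδ, fun T E _ _ _ G vol hv s g Ei c hg hf 𝒪 h𝒪 => ?_⟩
  have h3 : ∀ y ∈ closure C₁, {a : C2 × E | a.1 ∈ closedBall (0 : C2) r → a ∈ 𝒪} ∈ 𝓝 (y, g y) := by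
    intro y _
    by_cases hy : y ∈ closedBall (0 : C2) r
    · exact mem_of_superset (h𝒪 y hy) fun _ h _ => h
    · exact ((continuousAt_fst (p := (y, g y))).eventually
        (isClosed_closedBall.isOpen_compl.mem_nhds hy)).mono fun _ h h' => absurd h' h
  filter_upwards [h2 T E G vol hv s g Ei c hg hf _ h3] with t ⟨p, E₁, hp, hfl⟩
  obtain ⟨P, ξ, b1, b2⟩ := h1 E p E₁ _ hfl
  refine ⟨P, ξ, fun q hq => ?_, fun q hq => ⟨(b2 q hq).1, (b2 q hq).2.2, fun h => ?_⟩⟩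
  · obtain ⟨ζ, hζ⟩ := b1 q hq
    obtain ⟨a, b, -⟩ := hζ.self_of_nhds
    exact (FH.comp (hp _ b).1 a).congr (hζ.mono fun z hz => hz.2.2)
  · rw [(b2 q hq).2.1]
    have := mem_closedBall_zero_iff.2 h
    exact (hp _ (hrC this)).2 this

theorem tubeQ (hN : StNeck) (hD : StDefP) : StTubeQ := by
  intro l C ρ₀ hC hl h0 hd
  obtain ⟨r, hr, ρ, hρ, hrC, h1⟩ := tubeAt_of_flat hN hD l C ρ₀ hC hl h0 hd
  refine ⟨r, hr, ρ, hρ, hrC, fun ε hε => ?_⟩
  obtain ⟨δ, hδ, h2⟩ := h1 ε hε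
  refine ⟨min δ (1 / 2), by positivity,
    fun T E T' X _ _ _ _ _ _ F G vol vol' hp hv hv' t s' k Y D p Ei c hfh hfl => ?_⟩
  classical
  have z0 : (0 : C2) ∈ C := hrC (mem_closedBall_self hr.le)
  have j1 : ∀ y ∈ C, c * jac F vol t p y ≠ 0 := fun y hy e => by
    have := ((hfl.jhol y hy).2).trans (min_le_right _ _)
    rw [e] at this
    norm_num at this
  have ev : ∀ y ∈ C, ∀ᶠ w in 𝓝 y, w ∈ C := fun y hy => hC.mem_nhds hy
  let x₀ : Fib F t := ⟨p 0, (hfh 0 z0).1.1.self_of_nhds⟩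
  have g1 := fun y hy => D.hol p y (hfh y hy).1 (hfh y hy).2
  let y₀ : Fib G s' := ⟨D.q (p 0), (g1 0 z0).1.1.self_of_nhds⟩
  have v1 : ∀ y ∈ C, (Tw.lift x₀ p y).val = p y := fun y hy => by
    rw [Tw.lift_eq _ (hfh y hy).1.1.self_of_nhds]
  have l1 : IsLocalHomeomorphOn (Tw.lift x₀ p) C := fun y hy =>
    lh_lift x₀ ((ev y hy).mono fun w hw => (hfh w hw).1)
      (right_ne_zero_of_mul (right_ne_zero_of_mul (j1 y hy))) y rfl
  have l2 : IsLocalHomeomorphOn ((fun x : Fib F t => (D.q x.val).2) ∘ Tw.lift x₀ p) C := by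
    intro y hy
    have a1 : Et G (fun w => D.q (p w)) y := by
      have a2 := mul_ne_zero D.c_ne (right_ne_zero_of_mul (j1 y hy))
      rw [← (g1 y hy).2] at a2
      exact right_ne_zero_of_mul a2
    refine lh_congr (((fibH G hp s').isLocalHomeomorph.isLocalHomeomorphOn (s := univ)).comp
      (lh_lift y₀ ((ev y hy).mono fun w hw => (g1 w hw).1) a1) (mapsTo_univ _ _)) ?_ y rfl
    filter_upwards [ev y hy] with w hw
    simp only [Function.comp, v1 w hw]
    rw [Tw.lift_eq (u := fun w => D.q (p w)) y₀ (g1 w hw).1.1.self_of_nhds]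
    rfl
  have l3 := l2.of_comp_right l1
  have o1 : IsOpen (Tw.lift x₀ p '' C) := isOpen_iff_mem_nhds.2 (by
    rintro _ ⟨y, hy, rfl⟩
    rw [← l1.map_nhds_eq hy]
    exact image_mem_map (ev y hy))
  have l4 : IsLocalHomeomorph fun x : Tw.lift x₀ p '' C => (D.q x.1.val).2 :=
    isLocalHomeomorph_iff_isLocalHomeomorphOn_univ.2
      (l3.comp o1.isOpenEmbedding_subtypeVal.isLocalHomeomorph.isLocalHomeomorphOn
        fun x _ => x.2)
  have hQ : IsLocalHomeomorph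
      fun a : T' × (Tw.lift x₀ p '' C) => ((a.1, (D.q a.2.1.val).2) : T' × X) := by
    intro a
    obtain ⟨e, e1, e2⟩ := l4 a.2
    exact ⟨(OpenPartialHomeomorph.refl T').prod e, ⟨trivial, e1⟩, by
      funext b; rw [congrFun e2 b.2]; rfl⟩
  have := Tw.t2_fib F t
  let g : C2 → T' × (Tw.lift x₀ p '' C) := fun y =>
    (s', if h : Tw.lift x₀ p y ∈ Tw.lift x₀ p '' C then ⟨_, h⟩ else ⟨_, mem_image_of_mem _ z0⟩)
  have g2 : ∀ y ∈ C, (g y).2.1 = Tw.lift x₀ p y := fun y hy => by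
    simp only [g, dif_pos (mem_image_of_mem _ hy)]
  have g3 : ∀ y ∈ C, ((g y).1, (D.q (g y).2.1.val).2) = D.q (p y) := fun y hy => by
    rw [g2 y hy, v1 y hy]
    exact Prod.ext ((hp _).symm.trans (g1 y hy).1.1.self_of_nhds).symm rfl
  have g4 : ∀ y ∈ C, (fun w => ((g w).1, (D.q (g w).2.1.val).2)) =ᶠ[𝓝 y] fun w => D.q (p w) :=
    fun y hy => (ev y hy).mono g3
  have g5 : ∀ y ∈ C, ∀ y' ∈ C, g y = g y' → p y = p y' := fun y hy y' hy' e => by
    rw [← v1 y hy, ← v1 y' hy', ← g2 y hy, ← g2 y' hy', e]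
  have g7 : ∀ a b, p a = p b → g a = g b := fun a b e => by
    have : Tw.lift x₀ p a = Tw.lift x₀ p b := by simp only [Tw.lift, e]
    simp only [g, this]
  have g6 : ∀ y ∈ C, FH (pull G hQ) s' g y := fun y hy => by
    refine (pull_fh G hQ).2 ⟨continuousAt_const.prodMk ?_, (g1 y hy).1.congr (g4 y hy)⟩
    refine Topology.IsInducing.subtypeVal.continuousAt_iff.2 ?_
    exact (l1.continuousAt hy).congr ((ev y hy).mono fun w hw => (g2 w hw).symm)
  have g8 : ∀ y ∈ C, c * D.c⁻¹ * jac (pull G hQ) (fun x => vol' (x.1, (D.q x.2.1.val).2)) s' g y =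
      c * jac F vol t p y := fun y hy => by
    rw [pull_jac G hQ vol', Dfm.jac_congr vol' s' (g4 y hy), (g1 y hy).2, mul_assoc,
      inv_mul_cancel_left₀ D.c_ne]
  have key := (h2 _ _ (pull G hQ) _ (pull_rel G hQ hv') s' g Ei (c * D.c⁻¹) g6
    ⟨fun y hy y' hy' a b => hfl.inj y hy y' hy' a (g5 y hy y' hy' b),
      fun i y a b => ⟨(hfl.hol i y a b).1, (hfl.hol i y a b).2.trans (min_le_left _ _)⟩,
      fun i y a b => g7 _ _ (hfl.rel i y a b),
      fun y hy => ⟨(hfl.jhol y hy).1.congr_of_eventuallyEq ((ev y hy).mono g8), by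
        rw [g8 y hy]; exact (hfl.jhol y hy).2.trans (min_le_left _ _)⟩,
      fun i y a b d => by rw [g8 _ b, g8 _ d]; exact hfl.jrel i y a b d⟩).push G hQ
  exact fun 𝒪 h𝒪 => key 𝒪 fun y hy => by
    simp only [g3 y (hrC hy)]; exact h𝒪 y hy

end Vale.Agent.P290Z.Odd
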